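import Crest.Agent.X212.Clr59.Hk
import Crest.Agent.X212.Rf65.Ec
import Crest.Agent.X212.Rd78.Hc

/-!
# Row 212, P-CLR (helper59), file 5: parallel sections and harmonic forms on a cross-section

`har_iff` : harmonic forms are `ν ⊗ ξ` with `ξ` parallel;  `dh_eq` : `dh = dz`;  `bs_bh`, `py_of`.
-/

set_option autoImplicit false
set_option linter.unusedSectionVars false
noncomputable section
open Set Function Filter Topology Real MeasureTheory
open scoped ContDiff Manifold InnerProductSpace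

namespace Crest.Agent.X212.Clr59
open An An.Pre Sob92 Wz78 Pj41 Nd18 Cyf70
open Rdc90 (Bs Har bh A0 By)
open Rf65 (Psc ParY dz dh PY ctr nab_fst nab_some)
open Abel74 (Red)
open Std94 (pmx)

variable {E3 : Type} [NormedAddCommGroup E3] [NormedSpace ℝ E3] [FiniteDimensional ℝ E3]
  [MeasurableSpace E3] [BorelSpace E3]
  {H3 : Type} [TopologicalSpace H3] {I3 : ModelWithCorners ℝ E3 H3} [I3.Boundaryless]
  {Y : Type} [TopologicalSpace Y] [ChartedSpace H3 Y] [IsManifold I3 ∞ Y] [T2Space Y]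
  [MeasurableSpace Y] [BorelSpace Y] [SecondCountableTopology Y] [CompactSpace Y]
  {κ : Type} [Fintype κ] {lam : Type} [Fintype lam] {D : YD I3 Y κ lam} {β : YC Y κ lam}
  {ξ ζ : Y → β.m.A} {ν : κ → Y → ℝ} {r s : ℝ} {η : κ → Y → β.m.A}

/-- the form `ν ⊗ ξ` -/
def tY (ν : κ → Y → ℝ) {V : Type} [AddCommGroup V] [Module ℝ V] : (Y → V) →ₗ[ℝ] κ → Y → V where
  toFun ξ k y := ν k y • ξ y
  map_add' _ _ := funext₂ fun _ _ => smul_add _ _ _
  map_smul' _ _ := funext₂ fun _ _ => smul_comm _ _ _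

theorem tY_apply (k : κ) (y : Y) : tY ν ξ k y = ν k y • ξ y := rfl

variable (D β) in
/-- the parallel sections -/
def parS : Submodule ℝ (Y → β.m.A) where
  carrier := {ξ | ParY D β ξ}
  zero_mem' := ⟨contMDiff_const, fun _ => zero_mem _, fun k y => by simp [nab]⟩
  add_mem' h h' := ⟨h.sm.add h'.sm, fun y => add_mem (h.mem y) (h'.mem y), fun k y =>
    (nab_add k (h.sm y) (h'.sm y)).trans (by rw [h.par, h'.par, add_zero])⟩
  smul_mem' r _ h := ⟨fun y => SA.smul contMDiffAt_const (h.sm y), fun y => (β.m.gS y).smul_mem r (h.mem y),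
    fun k y => (nab_csmul k r (h.sm y)).trans (by rw [h.par, smul_zero])⟩

theorem dz_def : dz D β = Module.finrank ℝ (parS D β) := by rw [← (parS D β).span_eq]; rfl

theorem ad_cy (hD : D.OK) (A : D.Adm β) : Ad D.B D.G (cy β).W := ⟨hD.B, hD.G.P, A.adm.ok, A.adm.conn⟩

theorem fl_bs (b : Bs D β) : Fl D.B D.G (cy β).W := ⟨ad_cy b.ok b.adm, b.flat⟩

theorem par_cyl (A : D.Adm β) (p : ParY D β ξ) (a : Option κ) (x : Y × ℝ) :
    nab (IC I3) D.Z.e ((cy β).m.adW (cy β).W) a (fun q => ξ q.1) x = 0 := by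
  have := nab_fst (F := D.F) (A := fun a y => adc (β.W a y)) (fun y => by rw [A.tmp]; simp [adc]) p.sm a x
  cases a
  exacts [this, this.trans (p.par _ _)]

theorem ps_par (hD : D.OK) (A : D.Adm β) (p : ParY D β ξ) :
    PS D.G (cy β).W (cy β).W univ fun x => opL (ξ x.1) :=
  ps_g (ad_cy hD A) (sm_fst p.sm) (fun x => p.mem x.1) (par_cyl A p)

theorem par_slice {X : Y × ℝ → β.m.A} (s : Sm (IC I3) X) (g : ∀ x, X x ∈ β.m.gS x.1)
    (p : ∀ a x, nab (IC I3) D.Z.e ((cy β).m.adW (cy β).W) a X x = 0) (t : ℝ) : ParY D β fun y => X (y, t) :=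
  ⟨sm_slice_fst s t, fun y => g (y, t), fun k y =>
    (nab_some (F := D.F) (A := fun a y => adc (β.W a y)) s k (y, t)).symm.trans (p _ _)⟩

theorem red_of (hD : D.OK) (A : D.Adm β) (p : ParY D β ξ) (n : ∀ y, ‖ξ y‖ = 4) :
    Red D.Z (cy β).m (cy β).W fun x => ξ x.1 :=
  ⟨sm_fst p.sm, fun x => p.mem x.1, fun x => (Std94.g_sq hD.B (pmx A.adm.ok x) (p.mem x.1)).trans
    ((congrArg (fun t : ℝ => (-t ^ 2 / 16) • (cy β).m.p x) (n x.1)).trans (by norm_num)), par_cyl A p⟩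

theorem of_red (hD : D.OK) (A : D.Adm β) (h : Red D.Z (cy β).m (cy β).W fun x => ξ x.1) :
    ParY D β ξ ∧ ∀ y, ‖ξ y‖ = 4 := by
  refine ⟨par_slice h.sm h.mem h.par 0, fun y => ?_⟩
  obtain ⟨_, _, f, F⟩ := Std94.exists_fx hD.B (pmx A.adm.ok (y, 0))
  obtain ⟨n, -, n1, n2⟩ := red_n (G := D.G) h F
  have := (Std94.inner_hs' (ξ y) (ξ y)).trans ((congrArg₂ Std94.hs n2 n2).trans (hs_unit n1))
  rw [real_inner_self_eq_norm_sq] at this
  nlinarith [norm_nonneg (ξ y)]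

section conn
variable [PreconnectedSpace (Y × ℝ)] (hD : D.OK) (A : D.Adm β)
include hD A

theorem par_of_ps {T : Y × ℝ → En (Fin β.m.N)} (p : PS D.G (cy β).W (cy β).W univ T) {x : Y × ℝ} (s : Skw (T x)) :
    ∃ ξ, ParY D β ξ ∧ ∀ x, T x = opL (ξ x.1) :=
  let ⟨a1, a2, a3⟩ := p.g (ad_cy hD A) s
  have k := par_slice a1 a2 a3 x.2
  ⟨_, k, fun _ => p.eqOn (ps_par hD A k) (ad_cy hD A) (ad_cy hD A) isOpen_univ isPreconnected_univ Subset.rfl
    (mem_univ x) (opL_hsL _).symm trivial⟩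

theorem red_fst [Nonempty Y] {X : Y × ℝ → β.m.A} (h : Red D.Z (cy β).m (cy β).W X) :
    ∃ ξ : Y → β.m.A, X = fun x => ξ x.1 :=
  let ⟨ξ, _, e⟩ := par_of_ps hD A (red_ps (ad_cy hD A) h) (h.mem (Classical.arbitrary _)).1
  ⟨ξ, funext fun x => (hsL_opL _).symm.trans ((congrArg hsL (e x)).trans (hsL_opL _))⟩

theorem norm_par (p : ParY D β ξ) (y y' : Y) : ‖ξ y‖ = ‖ξ y'‖ := by
  have := (ps_par hD A p).nrm (ad_cy hD A) (ad_cy hD A) isOpen_univ isPreconnected_univ (mem_univ (y', 0))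
    (mem_univ (y, 0))
  rwa [← Std94.inner_hs', ← Std94.inner_hs', real_inner_self_eq_norm_sq, real_inner_self_eq_norm_sq,
    sq_eq_sq₀ (norm_nonneg _) (norm_nonneg _)] at this

theorem dz_cen (y : Y) (h : ∀ v ∈ β.m.gS y, ∃ ξ, ParY D β ξ ∧ ξ y = v) : dz D β = 3 := by
  let ev : parS D β →ₗ[ℝ] β.m.A := ⟨⟨fun ξ => ξ.1 y, fun _ _ => rfl⟩, fun _ _ => rfl⟩
  have i : Injective ev := (injective_iff_map_eq_zero _).2 fun ξ e => Subtype.ext (funext fun y' =>
    norm_eq_zero.1 ((norm_par hD A ξ.2 y' y).trans (norm_eq_zero.2 e)))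
  have e : ev.range = β.m.gS y := le_antisymm (by rintro _ ⟨ξ, rfl⟩; exact ξ.2.mem y) fun v hv =>
    let ⟨ξ, p, e⟩ := h v hv; ⟨⟨ξ, p⟩, e⟩
  have := Std94.finrank_g hD.B (pmx A.adm.ok (y, 0))
  rw [dz_def, ← LinearMap.finrank_range_of_inj i, e]
  exact this

end conn

theorem dz_one (p : ParY D β ξ) (h0 : ξ ≠ 0) (h : ∀ ζ, ParY D β ζ → ∃ r : ℝ, ζ = r • ξ) : dz D β = 1 := by
  rw [dz_def, ← finrank_span_singleton (K := ℝ) h0, le_antisymm (a := parS D β) (fun ζ k =>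
    let ⟨r, e⟩ := h ζ k; Submodule.mem_span_singleton.2 ⟨r, e.symm⟩) (Submodule.span_le.2 (singleton_subset_iff.2 p))]

theorem bh_W (ξ : Y → β.m.A) (s : ℝ) (a : Option κ) (x : Y × ℝ) : (cy (bh β (s • tY ν ξ) 0)).W a x =
    β.W a x.1 + (s * a.elim 0 fun k => ν k x.1) • opL (ξ x.1) := by
  change β.W a x.1 + opL (a.elim 0 fun k => s • ν k x.1 • ξ x.1) = _
  cases a <;> simp [smul_smul]

theorem py_of (S : Psc D.F (fun _ : Fin 1 => ν) r) (h : ∀ x s, fL D.B D.G x s = 0) : PY D 1 :=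
  ⟨le_rfl, ⟨r / 4, by linarith [S.pos], fun x => by
    have : r ≤ sc D.G x := S.cyl.sc x
    simp only [fP, h, mul_zero, Finset.sum_const_zero, ne_eq, two_ne_zero, not_false_eq_true, zero_pow, sqrt_zero]
    linarith⟩, _, _, S⟩

theorem fL_zero (h : ∀ k y, D.a k y = 0) (x : Y × ℝ) (s : Option κ × Option κ) : fL D.B D.G x s = 0 := by
  have : D.G.a = fun _ _ => 0 := funext₂ fun a x => by cases a; exacts [rfl, h _ _]
  simp [fL, this, curv]

variable (S : Psc D.F (fun _ : Fin 1 => ν) r)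
include S

theorem ctr_tY (y : Y) : ∑ k, ν k y • tY ν ξ k y = ξ y := by
  simp [tY_apply, smul_smul, ← Finset.sum_smul, S.ort 0 0 y]

theorem tY_inj : Injective (tY ν (V := β.m.A)) := fun ξ ζ e => funext fun y => by
  rw [← ctr_tY S (ξ := ξ), e, ctr_tY S]

theorem har_iff (b : Bs D β) : Har D β η ↔ ∃ ξ, ParY D β ξ ∧ η = tY ν ξ := by
  refine ⟨fun hh => ?_, ?_⟩
  · obtain ⟨f, hf, e⟩ := Rd78.en_eq (Rd78.riem_Y b.ok) (Rd78.con_A0 b.adm) (Rd78.skew_A0 b.adm) hh.sm hh.P hh.ed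
      hh.dv fun a c x => Rd78.curv_A0 b.ok b.adm b.flat a c x (hh.mem c x)
    have := openPos D.F.toPre
    have c := (sm_dvg (F := D.F) hf).continuous.neg
    have e0 : ∀ x, 0 ≤ -dvg I3 D.F.e D.F.dv f x := fun x => e x ▸ S.en_nonneg (fun b => hh.sm b x) (hh.P · x)
    have e1 := (c.ae_eq_iff_eq D.F.μ continuous_zero).1 ((integral_eq_zero_iff_of_nonneg e0
      (c.integrable_of_hasCompactSupport (.of_compactSpace _))).1 (by
        rw [integral_neg, integral_dvg hf fun _ => .of_compactSpace _, neg_zero]))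
    have e2 := fun y => S.of_en (fun b => hh.sm b y) (hh.P · y) ((e y).trans (congrFun e1 y)).le
    exact ⟨_, ⟨S.sm_ctr hh.sm 0, fun y => sum_mem fun k _ => (β.m.gS y).smul_mem _ (hh.mem k y),
      fun k y => (e2 y).2 0 k⟩, funext₂ fun k y => ((e2 y).1 k).trans (Fin.sum_univ_one _)⟩
  · rintro ⟨ξ, p, rfl⟩
    have P : ∀ k y, ∑ l, D.F.P k l y • tY ν ξ l y = tY ν ξ k y := fun k y => by
      simp only [tY_apply, smul_smul, ← Finset.sum_smul, S.P 0]
    have c : ∀ j k y, cov I3 D.F.e D.F.Gam (A0 β) (tY ν ξ) j k y = 0 := fun j k y => by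
      simpa [p.par] using! S.cov_sum (A := A0 β) (ξ := fun _ => ξ) (fun _ => p.sm y) j k
    exact ⟨⟨fun k => (S.sm 0 k).smul p.sm, fun k y => (β.m.gS y).smul_mem _ (p.mem y), P⟩,
      fun j k y => by rw [Rd78.ed_cov (P · y), c, c, sub_zero],
      fun y => by simp only [Rd78.dv1_cov (Rd78.riem_Y b.ok) (P · y), c, Finset.sum_const_zero]⟩

theorem dh_eq (b : Bs D β) : dh D β = dz D β := by
  have : {η | Har D β η} = (parS D β).map (tY ν) := Set.ext fun _ => (har_iff S b).trans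
    (exists_congr fun _ => and_congr_right fun _ => eq_comm)
  rw [dh, this, Submodule.span_eq, dz_def, ← ((parS D β).equivMapOfInjective _ (tY_inj S)).finrank_eq]

theorem bs_bh (b : Bs D β) (h : Har D β η) : Bs D (bh β η 0) :=
  ⟨b.ok, b.dim, Rd78.adm_bh b.adm h.toFo ⟨contMDiff_const, fun _ => map_zero _⟩, fun y => (add_zero _).trans (b.zr y),
    Rd78.flt_bh b.ok b.adm b.flat 0 h.toFo fun j k y => by
      rw [By, h.ed, Rd78.hc _ _ _ _ D β b _ _ _ S η h, add_zero]⟩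

theorem bs_tw (b : Bs D β) (p : ParY D β ξ) (s : ℝ) : Bs D (bh β (s • tY ν ξ) 0) :=
  bs_bh S b ((har_iff S b).2 ⟨_, (parS D β).smul_mem s p, (map_smul _ _ _).symm⟩)

end Crest.Agent.X212.Clr59
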