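import Crest.Agent.X212.Clr59.Hl
import Crest.Agent.X212.Rf65.Rs
import Crest.Agent.X212.Rf65.Psc
import Crest.Agent.X212.Loc8.Sc
import Crest.Agent.X212.Qab60.Frm
import Crest.Agent.X212.Met55.Fr

/-!
# Row 212, P-CLR (helper59), file 4: the product `S¹ × S²`

`nu` : the angular form in a frame;  `psc` : the curvature;  `exists_cv` : the cover of the cylinder.
-/

set_option autoImplicit false
set_option linter.unusedSectionVars false
noncomputable section
open Set Function Filter Topology Real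
open scoped ContDiff Manifold InnerProductSpace

namespace Crest.Agent.X212.Clr59
open An Sob92 Wz78 Dfl49 Cyf70 Hz56
open Rf65 (PR V3 Psc)
open Line51 (CSm ang)
open M (Mf)

/-- the branch of the angle centred at `t` -/
def br (t : ℝ) (z : Circle) : ℝ := Complex.arg (z * Circle.exp (-t) : Circle) + t

theorem exp_br (t : ℝ) (z : Circle) : Circle.exp (br t z) = z := by
  rw [br, Circle.exp_add, Circle.exp_arg, mul_assoc, ← Circle.exp_add, neg_add_cancel, Circle.exp_zero, mul_one]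

theorem br_exp {t r : ℝ} (h : r ∈ Ioo (t - π) (t + π)) : br t (Circle.exp r) = r := by
  rw [br, ← Circle.exp_add, Circle.arg_exp (by linarith [h.1]) (by linarith [h.2]), neg_add_cancel_right]

theorem sm_br {t r : ℝ} (h : r ∈ Ioo (t - π) (t + π)) : ContMDiffAt (𝓡 1) 𝓘(ℝ, ℝ) ∞ (br t) (Circle.exp r) := by
  have s : ((Circle.exp r * Circle.exp (-t) : Circle) : ℂ) ∈ Complex.slitPlane :=
    Complex.mem_slitPlane_iff_arg.2 ⟨by
      rw [← Circle.exp_add, Circle.arg_exp (by linarith [h.1]) (by linarith [h.2])]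
      linarith [h.2], Circle.coe_ne_zero _⟩
  have := (Complex.imCLM.contDiff.contDiffAt.comp _ ((Complex.contDiffAt_log (n := ∞) s).restrict_scalars ℝ)).contMDiffAt.comp
    (f := fun z : Circle => ((z * Circle.exp (-t) : Circle) : ℂ)) (Circle.exp r)
    ((Line51.contMDiff_coe _).comp _ (contMDiffAt_id.mul contMDiffAt_const))
  exact (this.congr_of_eventuallyEq (.of_forall fun z => (Complex.log_im _).symm)).add contMDiffAt_const

section gen
variable {E : Type} [NormedAddCommGroup E] [NormedSpace ℝ E] [FiniteDimensional ℝ E]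
  [MeasurableSpace E] [BorelSpace E]
  {HM : Type} [TopologicalSpace HM] {I : ModelWithCorners ℝ E HM}
  {M : Type} [TopologicalSpace M] [ChartedSpace HM M] [IsManifold I ∞ M]
  [MeasurableSpace M] {ι : Type} [Fintype ι] (F : Fr I M ι) {θ : M → Circle} {x : M} {t : ℝ}

/-- the angular form in a frame -/
def nu (θ : M → Circle) (a : ι) (x : M) : ℝ := ⟪Complex.I * θ x, F.D a (fun y => (θ y : ℂ)) x⟫_ℝ

theorem sa_br (h : CSm I θ x) (k : θ x ∈ Circle.exp '' Ioo (t - π) (t + π)) : SA I (fun y => br t (θ y)) x := by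
  obtain ⟨r, hr, e⟩ := k
  exact ContMDiffAt.comp x (e ▸ sm_br hr) h

theorem mem_arc (z : Circle) : z ∈ Circle.exp '' Ioo (Complex.arg z - π) (Complex.arg z + π) :=
  ⟨_, ⟨by linarith [pi_pos], by linarith [pi_pos]⟩, Circle.exp_arg z⟩

theorem D_br (h : SA I (fun y => br t (θ y)) x) (a : ι) : F.D a (fun y => br t (θ y)) x = nu F θ a x := by
  have := dv_comp (e := F.e a) h.md
    ((Complex.ofRealCLM.hasDerivAt (x := br t (θ x))).mul_const Complex.I).cexp.hasFDerivAt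
  simp only [Complex.ofRealCLM_apply, ← Circle.coe_exp, exp_br] at this
  rw [nu, Pre.D_def, Pre.D_def, this]
  have n := Complex.normSq_apply _ ▸ Circle.normSq_coe (θ x)
  simp
  linear_combination -dv I (F.e a) (fun y => br t (θ y)) x * n

theorem c1_ang [I.Boundaryless] [T2Space M] [BorelSpace M] [SecondCountableTopology M] (h : CSm I θ x) (a : ι) : Qab60.c1 F (ang I θ) x a = nu F θ a x := by
  have s := sa_br h (mem_arc _)
  have := Line51.ang_exp s
  simp only [exp_br] at this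
  rw [← D_br F s, ← Qab60.c1_df]
  exact congrArg (Num57.e1 · _) this

end gen

variable {Y : Mf 3} [CompactSpace Y.M] {κ : Type} [Fintype κ] {F : Fr Y.I Y.M κ} {θ : Y.M → Circle} {ϖ : Y.M → V3}
  (h : PR F θ ϖ)
include h

theorem sm_θ : ContMDiff Y.I (𝓡 1) ∞ θ := h.oe.contMDiff.fst.comp (contMDiff_id.prodMk (contMDiff_const (c := 0)))

theorem sm_ϖ : Sm Y.I ϖ := by
  simpa [comp_def] using h.oe.contMDiff.snd.comp (contMDiff_id.prodMk (contMDiff_const (c := (0 : ℝ))))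

theorem psc : Psc F (fun _ : Fin 1 => nu F θ) 1 := by
  let e := WithLp.prodContinuousLinearEquiv 2 ℝ ℝ V3
  let p : WithLp 2 (ℝ × V3) →L[ℝ] WithLp 2 (ℝ × V3) := e.symm ∘L .inr ℝ ℝ V3 ∘L WithLp.sndL 2 ℝ ℝ V3
  have := Rf65.psc_of_sph F («π» := p) (v := fun _ : Fin 1 => WithLp.toLp 2 (1, 0)) (ν := fun _ => nu F θ) (n := 2)
    le_rfl ?_ (fun y => ?_) (fun w => WithLp.ofLp_injective 2 (by ext1 <;> simp [p, e])) (by simp) fun x => ?_
  · norm_num at this
    exact this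
  · exact (LinearMap.trace_comp_comm' (WithLp.sndL 2 ℝ ℝ V3).toLinearMap
      ((WithLp.linearEquiv 2 ℝ (ℝ × V3)).symm.toLinearMap ∘ₗ .inr ℝ ℝ V3)).trans
      ((LinearMap.trace_id ℝ V3).trans (by simp; norm_num))
  · have := (Met55.pre_sp F.toPre y).trace_prj (b := Module.finBasis ℝ Y.E)
    simp only [Met55.fr_P, (WithLp.linearEquiv 2 ℝ (ℝ × V3)).finrank_eq]
    simp [Matrix.trace, Met55.fP, Y.dim] at this ⊢
    linarith
  have s : ∀ᶠ y in 𝓝 x, SA Y.I (fun y => br (Complex.arg (θ x)) (θ y)) y :=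
    ((sm_θ h).continuous.continuousAt.eventually ((isLocalHomeomorph_circleExp.isOpenMap _ isOpen_Ioo).mem_nhds
      (mem_arc (θ x)))).mono fun y hy => sa_br (sm_θ h y) hy
  have d := s.mono fun y hy a => (dv_clm (e := F.e a) e.symm.toContinuousLinearMap
    (hy.md.prodMk_space (SA.md (sm_ϖ h y)))).trans (congrArg _ ((dv_prod hy.md (SA.md (sm_ϖ h y))).trans
      (congrArg (·, F.D a ϖ y) (D_br F hy a))))
  refine ⟨fun y => e.symm.toContinuousLinearMap (br (Complex.arg (θ x)) (θ y), ϖ y), ⟨fun _ => rfl,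
    fun _ _ => by simp [p, e], s.mono fun y hy => SA.clm _ (hy.prodMk_space (sm_ϖ h y)),
    .of_forall fun y => by simp [p, e, h.nrm], d.mono fun y hy v w => ?_⟩,
    d.mono fun y hy _ a => by rw [F.D_def, hy]; simp [e]⟩
  have g1 : ∑ k, nu F θ k y * nu F θ k y = 1 := (h.g1 y _ _).trans (by simp; ring)
  have g2 : ∀ w, ∑ k, nu F θ k y * ⟪w, F.D k ϖ y⟫_ℝ = 0 := h.g12 y _
  have : ∀ k, ⟪v, e.symm (nu F θ k y, F.D k ϖ y)⟫_ℝ * ⟪w, e.symm (nu F θ k y, F.D k ϖ y)⟫_ℝ =
      v.fst * w.fst * (nu F θ k y * nu F θ k y) + v.fst * (nu F θ k y * ⟪w.snd, F.D k ϖ y⟫_ℝ) +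
        w.fst * (nu F θ k y * ⟪v.snd, F.D k ϖ y⟫_ℝ) + ⟪v.snd, F.D k ϖ y⟫_ℝ * ⟪w.snd, F.D k ϖ y⟫_ℝ := fun k => by
    simp [e]; ring
  simp only [hy]
  simp only [ContinuousLinearEquiv.coe_coe, this, Finset.sum_add_distrib, ← Finset.mul_sum, g1, g2, h.g2]
  simp [p, e]
  ring

/-- the angular form on the cylinder -/
theorem nu_cyl (o : Option κ) (x : Y.M × ℝ) :
    nu (cyl F) (fun q => θ q.1) o x = o.elim 0 fun k => nu F θ k x.1 := by
  have s : Sm Y.I fun y => (θ y : ℂ) := Line51.contMDiff_coe.comp (sm_θ h)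
  cases o
  · exact (congrArg _ (congrFun (D_none_fst F.toPre s) x)).trans (inner_zero_right _)
  · exact congrArg _ (congrFun (D_some_fst F.toPre s _) x)

theorem arc {a b : ℝ} (k : b - a ≤ 2 * π) {S : Set (Y.M × ℝ)} (e : S = {x | θ x.1 ∈ Circle.exp '' Ioo a b}) :
    IsOpen S ∧ IsPreconnected S ∧ ∀ x ∈ S, Sur {x} S := by
  have oe := h.oe.isOpenEmbedding
  have im : (fun p : Y.M × ℝ => (θ p.1, exp p.2 • ϖ p.1)) '' S = Prod.map Circle.exp id '' (Ioo a b ×ˢ {0}ᶜ) := by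
    rw [prodMap_image_prod, image_id, e]
    refine Subset.antisymm ?_ fun p hp => ?_
    · rintro _ ⟨p, hp, rfl⟩
      exact ⟨hp, norm_pos_iff.1 (by simp [norm_smul, h.nrm, exp_pos])⟩
    · have h0 : 0 < ‖p.2‖ := norm_pos_iff.2 hp.2
      obtain ⟨y, h1, h2⟩ := h.surj p.1 (‖p.2‖⁻¹ • p.2) (norm_smul_inv_norm hp.2)
      exact ⟨(y, log ‖p.2‖), show θ y ∈ _ from h1 ▸ hp.1, by simp [h1, h2, exp_log h0, smul_smul, h0.ne']⟩
  have o : IsOpen S := e ▸ (isLocalHomeomorph_circleExp.isOpenMap _ isOpen_Ioo).preimage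
    ((sm_θ h).continuous.comp continuous_fst)
  have c : IsPreconnected S := oe.isInducing.isPreconnected_image.1 (im ▸ (isPreconnected_Ioo.prod
    (isConnected_compl_singleton_of_one_lt_rank (by rw [← Module.finrank_eq_rank]; simp) _).isPreconnected).image _
    (by fun_prop))
  have := locConn (M := Y.M × ℝ) (IC Y.I)
  exact ⟨o, c, fun x => Loc8.sur_of_h1 o c fun G _ => H1.of_image (im ▸ ((h1_punct (E := V3) (by simp)).convex_prod
    (convex_Ioo a b)).image ((op_exp isOpen_Ioo).prodMap (op_id _)) (((Circle.exp_injOn_Ico k).mono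
      Ioo_subset_Ico_self).prodMap (injOn_id _))) (op_of_isEmbedding oe.isEmbedding _) oe.injective.injOn⟩

/-- the cover of the cylinder -/
theorem exists_cv : Nonempty (Cv (cyl F) fun o x => o.elim 0 fun k => nu F θ k x.1) := by
  have p := pi_pos
  let t : Bool → ℝ := fun b => cond b π 0
  let W : ℝ → ℝ → Set (Y.M × ℝ) := fun a b => {x | θ x.1 ∈ Circle.exp '' Ioo a b}
  have u := fun b => arc h (a := t b - π) (b := t b + π) (by linarith) rfl
  have s := fun b x (hx : x ∈ W (t b - π) (t b + π)) =>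
    sa_br (I := IC Y.I) (θ := fun q : Y.M × ℝ => θ q.1) (t := t b) ((sm_θ h).comp contMDiff_fst x) hx
  obtain ⟨y, hy, -⟩ := h.surj (Circle.exp (π / 2)) (EuclideanSpace.single 0 1) (by simp)
  obtain ⟨z, hz, -⟩ := h.surj (Circle.exp (-(π / 2))) (EuclideanSpace.single 0 1) (by simp)
  refine ⟨⟨fun b => W (t b - π) (t b + π), fun b => W (-t b) (π - t b), fun b x => br (t b) (θ x.1), (y, 0), (z, 0),
    fun b => (u b).1, fun b => (u b).2.1, fun x => ?_, Subset.antisymm ?_ ?_,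
    fun b => (arc h (by linarith) rfl).2.1, ⟨_, ⟨?_, ?_⟩, hy.symm⟩, ⟨_, ⟨?_, ?_⟩, hz.symm⟩, fun b => (u b).2.2, s,
    fun b x hx a => (D_br _ (s b x hx) a).trans (nu_cyl h a x), ?_, ?_⟩⟩ <;> simp only [t, cond]
  · have h1 := Complex.neg_pi_lt_arg (θ x.1)
    rcases (Complex.arg_le_pi (θ x.1)).eq_or_lt with k | k
    · exact .inr ⟨_, ⟨by linarith, by linarith⟩, Circle.exp_arg _⟩
    · exact .inl ⟨_, ⟨by linarith, by linarith⟩, Circle.exp_arg _⟩
  · rintro x ⟨⟨r, ⟨r1, r2⟩, e⟩, s, ⟨s1, s2⟩, e'⟩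
    rcases lt_trichotomy r 0 with k | k | k
    · exact .inr ⟨r, ⟨by linarith, by linarith⟩, e⟩
    · linarith [Circle.exp_injOn_Ico (a := 0) (b := 2 * π) (by simp) ⟨k.ge, by linarith⟩ ⟨by linarith, by linarith⟩
        (e.trans e'.symm)]
    · exact .inl ⟨r, ⟨by linarith, by linarith⟩, e⟩
  · rintro x (⟨r, ⟨r1, r2⟩, e⟩ | ⟨r, ⟨r1, r2⟩, e⟩) <;> refine ⟨⟨r, ⟨by linarith, by linarith⟩, e⟩, ?_⟩
    exacts [⟨r, ⟨by linarith, by linarith⟩, e⟩,
      ⟨r + 2 * π, ⟨by linarith, by linarith⟩, (Circle.exp_add_two_pi r).trans e⟩]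
  iterate 4 linarith
  · rw [hy, br_exp ⟨by linarith, by linarith⟩, br_exp ⟨by linarith, by linarith⟩]
  · rw [hz, br_exp (t := 0) ⟨by linarith, by linarith⟩, ← Circle.exp_add_two_pi, br_exp ⟨by linarith, by linarith⟩]

end Crest.Agent.X212.Clr59
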