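import Crest.Agent.X212.Clr59.Ys
import Crest.Agent.X212.Clr59.Pr
import Crest.Agent.X212.Qab60.Props

/-!
# Row 212, P-CLR (helper59), file 6: the flat classes on `S¹ × S²`

`exists_clr` : the holonomy invariant;  `Clr.{fam, iso, dz, dh, lip, cont}`;  `py`;  `fly`, `flc`.
-/

set_option autoImplicit false
set_option linter.unusedSectionVars false
noncomputable section
open Set Function Filter Topology Real Quaternion
open scoped ContDiff Manifold InnerProductSpace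

namespace Crest.Agent.X212.Clr59
open An Sob92 Wz78 Pj41 Nd18 Cyf70 Dfl49 Tmp64
open Rdc90 (Bs Har bh)
open Rf65 (Psc ParY PY PR V3)
open Bki64 (Cn win CZ ZZ BB)
open M (Mf)

theorem polar' {k n : ℍ} (h : ‖k‖ = 1) (n0 : n.re = 0) (n1 : ‖n‖ = 1) (e : k * n = n * k) :
    ∃ σ : ℝ, (σ = 1 ∨ σ = -1) ∧ k = ex (-(σ * arccos k.re)) n := by
  have k1 := unit_iff.1 h
  have c : cos (arccos k.re) = k.re := cos_arccos (by nlinarith) (by nlinarith)
  have d := comm n0 n1 e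
  generalize ⟪k, n⟫_ℝ = b at d
  have : b ^ 2 = sin (arccos k.re) ^ 2 := by
    rw [sin_sq, c]
    rw [d] at k1
    rw [unit_iff, n0] at n1
    simp [n0] at k1
    linear_combination k1 - b ^ 2 * n1
  rcases sq_eq_sq_iff_eq_or_eq_neg.1 this with rfl | rfl
  exacts [⟨-1, .inr rfl, by simpa [ex, c] using d⟩, ⟨1, .inl rfl, by simpa [ex, c] using d⟩]

theorem cos_lip {a b t : ℝ} (ha : a ∈ Icc 0 (1 / 2 : ℝ)) (hb : b ∈ Icc 0 (1 / 2 : ℝ))
    (h : cos (2 * π * a) = cos (2 * π * (b + t))) : |a - b| ≤ |t| := by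
  obtain ⟨k, hk⟩ := cos_eq_cos_iff.1 h
  have e : b + t = k + a ∨ b + t = k - a :=
    hk.imp (fun e => mul_left_cancel₀ two_pi_pos.ne' (by linarith)) fun e => mul_left_cancel₀ two_pi_pos.ne' (by linarith)
  have : (k : ℝ) ≤ -1 ∨ (k : ℝ) = 0 ∨ 1 ≤ (k : ℝ) := by exact_mod_cast (by omega : k ≤ -1 ∨ k = 0 ∨ 1 ≤ k)
  obtain ⟨a0, a1⟩ := ha
  obtain ⟨b0, b1⟩ := hb
  rcases e with e | e <;> rcases this with k | k | k <;> refine abs_le.2 ⟨?_, ?_⟩ <;>
    linarith [le_abs_self t, neg_abs_le t]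

theorem cos_inj {a b : ℝ} (ha : a ∈ Icc 0 (1 / 2 : ℝ)) (hb : b ∈ Icc 0 (1 / 2 : ℝ))
    (h : cos (2 * π * a) = cos (2 * π * b)) : a = b := by
  simpa [sub_eq_zero] using cos_lip ha hb (t := 0) (by rwa [add_zero])

theorem alg {V V' : Type} [NormedAddCommGroup V] [NormedSpace ℝ V] [NormedAddCommGroup V'] [NormedSpace ℝ V']
    {d g : V →L[ℝ] V'} {w x p : V' →L[ℝ] V'} {g' : V' →L[ℝ] V} {w' : V →L[ℝ] V} {s t r : ℝ}
    (k1 : d + (w + (s * r) • x) ∘L g - g ∘L w' = 0) (k2 : g ∘L g' = p) (k3 : x ∘L p = x) :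
    (d + (w + (t * r) • x) ∘L g - g ∘L w') ∘L g' = (t - s) • r • x := by
  rw [← sub_zero (_ - _ ∘L _), ← k1]
  conv_rhs => rw [← k3, ← k2, ← ContinuousLinearMap.comp_assoc, ← ContinuousLinearMap.smul_comp,
    ← ContinuousLinearMap.smul_comp]
  congr 1
  simp only [ContinuousLinearMap.add_comp, ContinuousLinearMap.smul_comp]
  module

variable {Y : Mf 3} [CompactSpace Y.M] {κ : Type} [Fintype κ] {lam : Type} [Fintype lam] {D : YD Y.I Y.M κ lam}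
  {θ : Y.M → Circle} {ϖ : Y.M → V3} {β β' : YC Y.M κ lam} {ξ ζ : Y.M → β.m.A} {hol : YC Y.M κ lam → ℝ}

variable (D θ) in
/-- the flat connection `β + s ν ξ` -/
abbrev tv (β : YC Y.M κ lam) (ξ : Y.M → β.m.A) (s : ℝ) : YC Y.M κ lam := bh β (s • tY (nu D.F θ) ξ) 0

variable (D θ hol) in
/-- **the holonomy invariant** of flat connections -/
structure Clr : Prop where
  mem : ∀ β, hol β ∈ Icc 0 (1 / 2 : ℝ)
  eqv : ∀ {β β'}, Bs D β → Bs D β' → (D.Eqv β β' ↔ hol β = hol β')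
  tw : ∀ {β ξ}, Bs D β → ParY D β ξ → (∀ y, ‖ξ y‖ = 4) → ∃ σ : ℝ, (σ = 1 ∨ σ = -1) ∧
    ∀ s, cos (2 * π * hol (tv D θ β ξ s)) = cos (2 * π * (hol β + σ * s))
  ax : ∀ {β}, Bs D β → ∃ ξ, ParY D β ξ ∧ (∀ y, ‖ξ y‖ = 4) ∧
    (∀ s, cos (2 * π * hol (tv D θ β ξ s)) = cos (2 * π * (hol β + s))) ∧
    (hol β ≠ 0 → hol β ≠ 1 / 2 → ∀ ζ, ParY D β ζ → ∃ r : ℝ, ζ = r • ξ)
  cen : ∀ {β}, Bs D β → hol β = 0 ∨ hol β = 1 / 2 → ∀ y, ∀ v ∈ β.m.gS y, ∃ ξ, ParY D β ξ ∧ ξ y = v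

theorem bs_of (hD : D.OK) (A : D.Adm β) (f : Fz D.Z (cy β) univ) : Bs D β :=
  ⟨hD, Y.dim, A, fun y => f.Φ (y, 0) trivial, fun x => f.F x trivial⟩

theorem fz_of (b : Bs D β) : Fz D.Z (cy β) univ := ⟨fun x _ => b.flat x, fun x _ => b.zr x.1⟩

theorem eqv_iff (b : Bs D β) (b' : Bs D β') : D.Eqv β β' ↔ ∃ g, PI D.Z (cy β) (cy β') univ g :=
  ⟨pi_of_eqv b.ok b.adm b'.adm, fun ⟨_, p⟩ => (p.eq0 (fz_of b) (fz_of b') (Subsingleton.elim _ _)).cfgIso
    (G := D.G) b.ok.B b.adm.adm b'.adm.adm⟩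

variable (h : PR D.F θ ϖ)
include h

theorem conn : PreconnectedSpace (Y.M × ℝ) := let ⟨c⟩ := exists_cv h; Cv.conn (G := D.G) c

theorem ne : Nonempty Y.M := let ⟨y, _⟩ := h.surj 1 (EuclideanSpace.single 0 1) (by simp); ⟨y⟩

/-- positive scalar curvature for a trivial flat line -/
theorem py (z : ∀ k y, D.a k y = 0) : PY D 1 := py_of (psc h) (fL_zero z)

theorem exists_clr : ∃ hol, Clr D θ hol := by
  by_cases z : ∃ β, Bs D β
  swap
  · exact ⟨0, fun _ => by simp, fun b => (z ⟨_, b⟩).elim, fun b => (z ⟨_, b⟩).elim, fun b => (z ⟨_, b⟩).elim,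
      fun b => (z ⟨_, b⟩).elim⟩
  obtain ⟨β₀, b₀⟩ := z
  obtain ⟨c⟩ := exists_cv h
  obtain ⟨R⟩ := exists_rf (G := D.G) c (fl_bs b₀)
  have := conn h
  have := ne h
  let hol : YC Y.M κ lam → ℝ := fun β =>
    arccos (Classical.epsilon fun r => ∃ f k, R.Kq (cy β).W f k ∧ k.re = r) / (2 * π)
  have sp : ∀ {β f k}, R.Kq (cy β).W f k → 2 * π * hol β = arccos k.re := fun {β f k} K => by
    obtain ⟨f', k', K', e⟩ := Classical.epsilon_spec (p := fun r => ∃ f k, R.Kq (cy β).W f k ∧ k.re = r) ⟨_, f, k, K, rfl⟩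
    rw [mul_div_cancel₀ _ two_pi_pos.ne', ← e,
      (K.iso_iff K').1 ⟨_, Iso0.refl (OK.on K.fl.ok _), (IsConn.on K.fl.cn _).par0_refl⟩]
  have sc : ∀ {β f k}, R.Kq (cy β).W f k → cos (2 * π * hol β) = k.re := fun K => by
    rw [sp K, cos_arccos K.re_mem.1 K.re_mem.2]
  have mem : ∀ β, hol β ∈ Icc 0 (1 / 2 : ℝ) := fun β => ⟨div_nonneg (arccos_nonneg _) two_pi_pos.le,
    (div_le_iff₀ two_pi_pos).2 (by linarith [arccos_le_pi (Classical.epsilon fun r =>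
      ∃ f k, R.Kq (cy β).W f k ∧ k.re = r)])⟩
  refine ⟨hol, mem, fun {β β'} b b' => ?_, fun {β ξ} b p n => ?_, fun {β} b => ?_, fun {β} b z y v hv => ?_⟩ <;>
    obtain ⟨f, k, K⟩ := R.exists_k (fl_bs b)
  · obtain ⟨f', k', K'⟩ := R.exists_k (fl_bs b')
    rw [eqv_iff b b', ← mul_right_inj' two_pi_pos.ne', sp K, sp K', arccos_inj K.re_mem.1 K.re_mem.2 K'.re_mem.1
      K'.re_mem.2, ← K.iso_iff K']
    exact exists_congr fun _ => ⟨fun p => ⟨p.1, p.2⟩, fun p => ⟨p.1, p.2⟩⟩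
  · have r := red_of b.ok b.adm p n
    obtain ⟨m, m0, m1, m2⟩ := red_n (G := D.G) r K.fx
    obtain ⟨σ, s1, s2⟩ := polar' K.nk m0 m1 ((K.par_iff K).1 ⟨_, red_ps K.fl.toAd r, m2⟩)
    refine ⟨σ, s1, fun s => (sc (β := tv D θ β ξ s) (K.tw r (bh_W ξ s) m0 m1 m2)).trans ?_⟩
    rw [s2, ex_mul m0 m1, ex_re m0, ← sp K, ← neg_add, cos_neg]
    rcases s1 with rfl | rfl
    · congr 1; ring
    · rw [← cos_neg]; congr 1; ring
  · obtain ⟨X, r, r1, r2⟩ := K.ax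
    obtain ⟨ξ, rfl⟩ := red_fst b.ok b.adm r
    refine ⟨ξ, (of_red b.ok b.adm r).1, (of_red b.ok b.adm r).2, fun s => ?_, fun z0 z1 ζ p => ?_⟩
    · obtain ⟨k', K', e⟩ := r1 _ s (bh_W ξ s)
      rw [sc (β := tv D θ β ξ s) K', e, ← sp K, mul_add]
    · obtain ⟨t, e⟩ := r2 (fun e => z0 (cos_inj (mem _) ⟨le_rfl, by norm_num⟩ (by rw [sc K, e]; simp)))
        (fun e => z1 (cos_inj (mem _) ⟨by norm_num, le_rfl⟩ (by rw [sc K, e, show 2 * π * (1 / 2) = π by ring, cos_pi])))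
        _ (ps_par b.ok b.adm p) (p.mem _).1
      exact ⟨t, funext fun y => (hsL_opL _).symm.trans ((congrArg hsL (e (y, 0))).trans
        ((map_smul _ _ _).trans (congrArg _ (hsL_opL _))))⟩
  · obtain ⟨g, g1, g2⟩ := K.cen (x := (y, 0)) (z.imp (fun e => by rw [← sc K, e]; simp) fun e => by
      rw [← sc K, e, show 2 * π * (1 / 2) = π by ring, cos_pi])
      (let ⟨_, _, _, F⟩ := Std94.exists_fx b.ok.B (Std94.pmx b.adm.adm.ok (y, 0)); F.itx_of_mem hv)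
    obtain ⟨ξ, p, e⟩ := par_of_ps b.ok b.adm g1 (x := (y, 0)) (g2 ▸ hv.1)
    exact ⟨ξ, p, (hsL_opL _).symm.trans ((congrArg hsL ((e (y, 0)).symm.trans g2)).trans (hsL_opL _))⟩

namespace Clr
variable (C : Clr D θ hol) (b : Bs D β)
include C b

/-- every flat connection lies on the circle of a parallel unit section -/
theorem fam (b' : Bs D β') (p : ParY D β ξ) (n : ∀ y, ‖ξ y‖ = 4) :
    ∃ s, |s| = |hol β' - hol β| ∧ D.Eqv β' (tv D θ β ξ s) := by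
  obtain ⟨σ, s1, s2⟩ := C.tw b p n
  refine ⟨σ * (hol β' - hol β), by rcases s1 with rfl | rfl <;> simp [abs_sub_comm],
    (C.eqv b' (bs_tw (psc h) b p _)).2 (cos_inj (C.mem _) (C.mem _) ?_)⟩
  rw [s2]
  rcases s1 with rfl | rfl <;> congr 1 <;> ring

/-- the modules of flat connections are isomorphic -/
theorem iso (b' : Bs D β') : ∃ g : Y.M → CL β'.m.V β.m.V, Iso0 (IC Y.I) (cy β').m (cy β).m univ fun x => g x.1 :=
  let ⟨_, p, n, _⟩ := C.ax b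
  let ⟨s, _, e⟩ := C.fam h b b' p n
  let ⟨g, k⟩ := (eqv_iff b' (bs_tw (psc h) b p s)).1 e
  ⟨fun y => g (y, 0), fun x _ => sm_fst (sm_slice_fst (fun x => k.iso.su x trivial) 0) x,
    fun x _ => k.iso.iso (x.1, 0) trivial, fun x _ => k.iso.J (x.1, 0) trivial, fun x _ => k.iso.ρ (x.1, 0) trivial,
    fun x _ => k.iso.j (x.1, 0) trivial⟩

theorem dz : Rf65.dz D β = if hol β = 0 ∨ hol β = 1 / 2 then 3 else 1 := by
  have := conn h
  obtain ⟨y⟩ := ne h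
  split_ifs with z
  · exact dz_cen b.ok b.adm y (C.cen b z y)
  · obtain ⟨ξ, p, n, -, e⟩ := C.ax b
    exact dz_one p (fun z => by simpa [z] using n y) (e (not_or.1 z).1 (not_or.1 z).2)

theorem dh : Rf65.dh D β = if hol β = 0 ∨ hol β = 1 / 2 then 3 else 1 := (dh_eq (psc h) b).trans (C.dz h b)

/-- two orthogonal parallel sections -/
theorem cen_of (p : ParY D β ξ) (p' : ParY D β ζ) {y : Y.M} (z : ξ y ≠ 0) (z' : ζ y ≠ 0) (o : ⟪ξ y, ζ y⟫_ℝ = 0) :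
    hol β = 0 ∨ hol β = 1 / 2 := by
  by_contra! k
  obtain ⟨ξ₀, -, n, -, e⟩ := C.ax b
  obtain ⟨r, rfl⟩ := e k.1 k.2 ξ p
  obtain ⟨r', rfl⟩ := e k.1 k.2 ζ p'
  simp [real_inner_smul_left, real_inner_smul_right] at o z z'
  tauto

theorem lip (p : ParY D β ζ) (y : Y.M) : |hol (bh β (tY (nu D.F θ) ζ) 0) - hol β| ≤ ‖ζ y‖ / 4 := by
  have := conn h
  have n := norm_par b.ok b.adm p
  rcases (norm_nonneg (ζ y)).eq_or_lt with z | z
  · obtain rfl : ζ = 0 := funext fun y' => norm_eq_zero.1 ((n y' y).trans z.symm)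
    simp [Rd78.bh_zero]
  obtain ⟨σ, s1, s2⟩ := C.tw b ((parS D β).smul_mem (4 / ‖ζ y‖) p) fun y' => by
    rw [Pi.smul_apply, norm_smul, n y' y, norm_of_nonneg (by positivity), div_mul_cancel₀ _ z.ne']
  have := cos_lip (C.mem _) (C.mem _) (s2 (‖ζ y‖ / 4))
  rw [tv, map_smul, smul_smul, show ‖ζ y‖ / 4 * (4 / ‖ζ y‖) = 1 by field_simp, one_smul] at this
  rcases s1 with rfl | rfl <;> simpa [abs_div] using this

theorem lip' {η : κ → Y.M → β.m.A} (k : Har D β η) {y : Y.M} {ε : ℝ} (e : ∀ j, ‖η j y‖ ≤ ε) :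
    |hol (bh β η 0) - hol β| ≤ Fintype.card κ * ε := by
  obtain ⟨ζ, p, rfl⟩ := (har_iff (psc h) b).1 k
  have n : ∀ j, |nu D.F θ j y| ≤ 1 := fun j => abs_le_one_iff_mul_self_le_one.2 ((Finset.single_le_sum
    (fun i _ => mul_self_nonneg (nu D.F θ i y)) (Finset.mem_univ j)).trans ((psc h).ort 0 0 y).le)
  have : ‖ζ y‖ ≤ Fintype.card κ * ε := by
    rw [← ctr_tY (ξ := ζ) (psc h) y, ← nsmul_eq_mul]
    exact (norm_sum_le _ _).trans (Finset.sum_le_card_nsmul _ _ _ fun j _ => (norm_smul _ _).trans_le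
      ((mul_le_of_le_one_left (norm_nonneg _) (n j)).trans (e j)))
  linarith [C.lip h b p y, norm_nonneg (ζ y)]

theorem cont_tv (p : ParY D β ξ) (n : ∀ y, ‖ξ y‖ = 4) : Continuous fun s => hol (tv D θ β ξ s) := by
  obtain ⟨σ, -, e⟩ := C.tw b p n
  refine (by fun_prop : Continuous fun s => arccos (cos (2 * π * (hol β + σ * s))) / (2 * π)).congr fun s => ?_
  have := C.mem (tv D θ β ξ s)
  rw [← e, arccos_cos (by nlinarith [pi_pos, this.1]) (by nlinarith [pi_pos, this.2]), mul_div_cancel_left₀ _ two_pi_pos.ne']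

/-- continuity -/
theorem cont {ε L : ℝ} (hε : 0 < ε) (hL : 0 < L) : ∃ η > 0, ∀ β' s u ζ, Bs D β' →
    Cn D (cy β') β u ζ (win Y.M s L) η → |hol β' - hol β| < ε := by
  obtain ⟨ξ, p, n, -⟩ := C.ax b
  have b' := bs_tw (psc h) b p
  obtain ⟨η, h0, h1⟩ := Bki64.exists_eta (γ := (β' : YC Y.M κ lam) × ℝ × (Y.M × ℝ → CL β'.m.V β.m.V) × Circle)
    (H := fun ⟨β', s, u, ζ⟩ η => Bs D β' ∧ Cn D (cy β') β u ζ (win Y.M s L) η)
    (P := fun d => |hol d.1 - hol β| < ε) fun d hd => by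
      choose s s1 s2 using fun m => C.fam h b (hd m).1 p n
      have : ∀ m, ∃ g : Y.M × ℝ → CL (d m).1.m.V β.m.V, Iso0 (IC Y.I) (cy (d m).1).m (cy β).m univ g ∧
          ∀ x a, D.Z.D a g x + (β.W a x.1 + (s m * a.elim 0 fun k => nu D.F θ k x.1) • opL (ξ x.1)) ∘L g x -
            g x ∘L (d m).1.W a x.1 = 0 := fun m =>
        let ⟨g, k⟩ := (eqv_iff (hd m).1 (b' _)).1 (s2 m); ⟨g, k.iso, fun x a => bh_W ξ _ a x ▸ k.par x trivial a⟩
      choose g hg hp using this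
      obtain ⟨t, -, ht⟩ := (isCompact_Icc (a := -1) (b := 1)).ultrafilter_le_nhds ((hyperfilter ℕ).map s)
        (le_principal_iff.2 (univ_mem' (f := (hyperfilter ℕ : Filter ℕ)) fun m => abs_le.1 ((s1 m).trans_le (abs_le.2
          ⟨by linarith [(C.mem (d m).1).1, (C.mem β).2], by linarith [(C.mem (d m).1).2, (C.mem β).1]⟩))))
      have o : ∀ᶠ m in hyperfilter ℕ, IsOpen (win Y.M (d m).2.1 L) := .of_forall fun _ => Bki64.win_op _ _
      have z : ∀ k, CZ D.Z (hyperfilter ℕ) (fun m => win Y.M (d m).2.1 L) k (fun m => cy (d m).1)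
          (cy (tv D θ β ξ t)) g fun _ _ => 1 := fun k => by
        refine CZ.mk (.of_forall fun m => (hg m).mono (subset_univ _)) (fun a => ?_) ((ZZ.zero o).congr' fun m x => by
          simp [Bki64.dP, (fz_of (hd m).1).Φ x trivial, (fz_of (b' t)).Φ x trivial, cs])
        refine ((ZZ.consts o (sub_self t ▸ tendsto_const_nhds.sub ht)).smul (BB.fst (F := D.F.toPre) o k
          (φ := fun y => (a.elim 0 fun k => nu D.F θ k y) • opL (ξ y)) fun y => SA.smul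
            (by cases a; exacts [contMDiffAt_const, (psc h).sm 0 _ y]) (SA.clm _ (p.sm y)))).congr' fun m x => ?_
        rw [Bki64.dA, Bki64.cov, bh_W]
        exact alg (hp m x a) (ad_trn (g m x) ▸ ((hg m).iso x trivial).tgt)
          (Std94.g_p b.ok.B (Std94.pmx b.adm.adm.ok x) (p.mem _))
      obtain ⟨g', _, e, -⟩ := Bki64.step_fam b.adm (b' t).adm (half_lt_self hL) hL
        (.of_forall fun m => (admOn_univ.2 (hd m).1.adm.adm).mono (subset_univ _)) (Bki64.cz_seq fun m => (hd m).2) z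
      have := (C.cont_tv h b p n).continuousAt.tendsto.comp ht
      rw [← (C.eqv b (b' t)).1 (e.eqv b.ok b.adm (b' t).adm)] at this
      exact ((this.eventually (Metric.ball_mem_nhds _ hε)).mono fun m k => by
        rwa [(C.eqv (hd m).1 (b' _)).1 (s2 m)]).exists
  exact ⟨η, h0, fun β' s u ζ k1 k2 => h1 ⟨β', s, u, ζ⟩ ⟨k1, k2⟩⟩

end Clr

theorem bs_eq (ξ : Y.M → β.m.A) (σ : ℝ) : Qab60.bs D θ β ξ σ = tv D θ β ξ σ := by
  refine congrArg (vr β · 0) (funext fun y => congrArg _ (funext fun o => ?_))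
  rw [PiLp.smul_apply, c1_ang (θ := fun q : Y.M × ℝ => θ q.1) _ ((sm_θ h).comp contMDiff_fst _), nu_cyl h]
  cases o <;> simp [tY_apply, smul_smul]

omit h

variable (D) in
/-- **FLY** -/
theorem fly : Qab60.FlyStmt D := fun θ ϖ β ξ hD h c σ => by
  obtain ⟨hol, C⟩ := exists_clr h
  have b := bs_of hD c.adm c.fz
  obtain ⟨p, n⟩ := of_red hD c.adm c.red
  obtain ⟨η, r, o⟩ := c.ex
  obtain ⟨p', n'⟩ := of_red hD c.adm r
  obtain ⟨y⟩ := ne h
  obtain ⟨s, s1, s2⟩ := C.tw b p n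
  have b' := bs_tw (psc h) b p
  simp only [bs_eq h]
  refine ⟨(b' σ).adm, fz_of (b' σ), fun σ' => (C.eqv (b' σ) (b' σ')).trans
    (Iff.trans ⟨congrArg fun t => cos (2 * π * t), cos_inj (C.mem _) (C.mem _)⟩ ?_)⟩
  rw [s2, s2]
  rcases C.cen_of h b p p' (norm_ne_zero_iff.1 (by simp [n])) (norm_ne_zero_iff.1 (by simp [n'])) (o y) with e | e <;>
    rcases s1 with rfl | rfl <;> simp [e, mul_add, show 2 * π * 2⁻¹ = π by ring, cos_add]

variable (D) in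
/-- **FLC** -/
theorem flc : Qab60.FlcStmt D := fun θ ϖ β ξ hD h c β' A f => by
  obtain ⟨hol, C⟩ := exists_clr h
  obtain ⟨p, n⟩ := of_red hD c.adm c.red
  simp only [bs_eq h]
  exact (C.fam h (bs_of hD c.adm c.fz) (bs_of hD A f) p n).imp fun _ => And.right

end Crest.Agent.X212.Clr59
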