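import Crest.Agent.X212.Clr59.Hl
import Crest.Agent.X212.Spn45.Aff
import Crest.Agent.X212.Abel74.Defs

/-!
# Row 212, P-CLR (helper59), file 3: the holonomy quaternion

`Rf` : central flat references;  `Rf.Kq` : the holonomy quaternion of a flat connection;
`par_iff`, `iso_iff` : parallel intertwiners;  `tw` : adding `s ν ξ`;  `ax`, `cen`.
-/

set_option autoImplicit false
set_option linter.unusedSectionVars false
noncomputable section
open Set Function Filter Topology Quaternion Real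
open scoped ContDiff Manifold InnerProductSpace

namespace Crest.Agent.X212.Clr59
open An Sob92 Wz78 Pj41 Dfl49
open Std94 (Itx Pix Fx Bx Xi S4 hs pmx Xi_comp trn_Xi Xi_inj hs_Xi Xi_mul)
open Abel74 (Red)

variable {E : Type} [NormedAddCommGroup E] [NormedSpace ℝ E] [FiniteDimensional ℝ E]
  [MeasurableSpace E] [BorelSpace E]
  {HM : Type} [TopologicalSpace HM] {I : ModelWithCorners ℝ E HM} [I.Boundaryless]
  {M : Type} [TopologicalSpace M] [ChartedSpace HM M] [IsManifold I ∞ M]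
  [MeasurableSpace M] {ι : Type} [Fintype ι] {lam : Type} [Fintype lam]
  {B : Base M ι lam} {G : Geo I M ι lam} {m m' : Md M ι lam} {W : m.Cn} {W' : m'.Cn} {x : M} {ξ η : M → m.A}
  {ν : ι → M → ℝ} {c : Cv G.F ν} {U : Fin 4 → ι → ℝ} {s₀ : Eu lam} {f : S4 →ₗᵢ[ℝ] m.V} {f' : S4 →ₗᵢ[ℝ] m'.V}
  {k k' n a : ℍ} {s : ℝ}

theorem unit_of (h : star k * k = 1) : ‖k‖ = 1 := by
  rw [star_mul_self, normSq_eq_norm_mul_self, ← coe_one, coe_inj, mul_self_eq_one_iff] at h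
  exact h.resolve_right (by linarith [norm_nonneg k])

theorem hs_unit (h : ‖k‖ = 1) : hs (Xi f' f k) (Xi f' f k) = 16 := by
  rw [hs_Xi, real_inner_self_eq_norm_sq, h]; norm_num

theorem Cv.ex (c : Cv G.F ν) (x : M) : ∃ b, x ∈ c.U b := (c.cov x).elim (⟨_, ·⟩) (⟨_, ·⟩)

theorem Cv.sν (c : Cv G.F ν) (a : ι) : Sm I (ν a) := fun x =>
  let ⟨b, hb⟩ := c.ex x
  (dv_smoothAt (G.F.sm a x) (c.sφ b x hb)).congr_of_eventuallyEq
    (((c.op b).eventually_mem hb).mono fun y hy => (c.dφ b y hy a).symm)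

theorem Cv.Pν (c : Cv G.F ν) (a : ι) (x : M) : ∑ b, G.F.P a b x * ν b x = ν a x := by
  obtain ⟨b, hb⟩ := c.ex x
  simp only [← c.dφ b x hb, Pre.D_def, Sob92.dv]
  rw [← G.F.P_e a x, map_sum]
  simp only [map_smul]
  rfl

theorem red_ps (h : Ad B G W) (r : Red G.F m W ξ) : PS G W W univ fun x => opL (ξ x) := ps_g h r.sm r.mem r.par

theorem red_n (r : Red G.F m W ξ) (F : Fx B m x U s₀ f) : ∃ n : ℍ, n.re = 0 ∧ ‖n‖ = 1 ∧ opL (ξ x) = Xi f f n := by
  obtain ⟨n, h1, h2⟩ := (F.mem_g_iff _).1 (r.mem x)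
  have := r.sq x
  rw [h2, opL_hsL, Xi_mul, ← F.Xi_one, ← map_neg] at this
  exact ⟨n, h1, unit_of (by rw [star_eq_neg.2 h1, neg_mul, Xi_inj _ _ this, neg_neg]), by rw [h2, opL_hsL]⟩

/-- an invariant imaginary unit extends to a reduction -/
theorem exists_red (h : Ad B G W) (F : Fx B m c.q U s₀ f) (h0 : n.re = 0) (h1 : ‖n‖ = 1)
    (k : Hl c W W (Xi f f n) (Xi f f n)) : ∃ ξ, Red G.F m W ξ ∧ opL (ξ c.q) = Xi f f n := by
  obtain ⟨g, g1, g2⟩ := k.glob h h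
  have := c.conn
  obtain ⟨a1, a2, a3⟩ := g1.g h (x := c.q) (g2 ▸ (Std94.skew_Xi_iff f n).2 h0)
  have p := ps_p h
  refine ⟨_, ⟨a1, a2, fun y => ?_, a3⟩, (opL_hsL _).trans g2⟩
  have := (g1.comp g1).eqOn (p.lin p (-2)) h h isOpen_univ isPreconnected_univ Subset.rfl (mem_univ c.q)
    (by rw [g2, Xi_comp, ← F.Xi_one, ← map_smul, ← map_add, ← neg_neg n, ← star_eq_neg.2 h0, neg_mul,
      star_eq_neg.2 h0, neg_neg, ← star_eq_neg.2 h0, star_mul_unit h1]; congr 1; module) (mem_univ y)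
  rw [opL_hsL]
  exact this.trans (by module)

/-- the holonomy on endomorphisms is inner -/
theorem exists_inner (h : Fl B G W) (F : Fx B m c.q U s₀ f) :
    ∃ k, ‖k‖ = 1 ∧ ∀ a, Hl c W W (Xi f f a) (Xi f f (k * a * star k)) := by
  have e : ∀ a, ∃ b, Hl c W W (Xi f f a) (Xi f f b) := fun a =>
    let ⟨_, k⟩ := exists_hl h h ((F.itx_iff F _).2 ⟨a, rfl⟩)
    let ⟨b, hb⟩ := (F.itx_iff F _).1 k.it
    ⟨b, hb ▸ k⟩
  choose Φ hΦ using e
  have u : ∀ {a b}, Hl c W W (Xi f f a) (Xi f f b) → Φ a = b := fun k => Xi_inj _ _ ((hΦ _).uq k h.toAd h.toAd)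
  have l : ∀ a b (r : ℝ), Φ (a + r • b) = Φ a + r • Φ b := fun a b r =>
    u (by simpa only [map_add, map_smul] using (hΦ a).lin (hΦ b) r)
  have z : Φ 0 = 0 := by simpa using l 0 0 (-1)
  obtain ⟨k, k1, k2⟩ := inner ⟨⟨Φ, fun a b => by simpa using l a b 1⟩, fun r b => by simpa [z] using l 0 b r⟩
    (u (by rw [F.Xi_one]; exact (ps_p h.toAd).hl)) fun a b => u (Xi_comp f f f _ _ ▸ Xi_comp f f f a b ▸ (hΦ b).comp (hΦ a))
  exact ⟨k, k1, fun a => k2 a ▸ hΦ a⟩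

section tw
variable {W' : m.Cn} (r : Red G.F m W ξ) (e : ∀ a x, W' a x = W a x + (s * ν a x) • opL (ξ x))
include r e

variable (c) in
include c in
/-- the twist of a flat connection is flat -/
theorem fl_tw (h : Fl B G W) : Fl B G W' := by
  have A : Ad B G W' := by
    obtain rfl : W' = m.addC W fun x => WithLp.toLp 2 fun a => (s * ν a x) • ξ x :=
      funext₂ fun a x => (e a x).trans (by simp [Md.addC])
    refine ⟨h.hB, h.hG, h.ok, Spn45.isConn_addC h.ok h.cn (fun x => ?_) fun x => Spn45.p1_iff.2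
      ⟨fun a => (m.gS x).smul_mem _ (r.mem x), fun a => ?_⟩⟩
    · exact SA.clm (PiLp.continuousLinearEquiv 2 ℝ fun _ : ι => m.A).symm.toContinuousLinearMap
        (contMDiffAt_pi_space.2 fun a => SA.smul (SA.mul contMDiffAt_const (c.sν a x)) (r.sm x))
    · simp only [smul_smul, ← Finset.sum_smul, ← h.hG, mul_left_comm _ s, ← Finset.mul_sum, c.Pν]
  refine ⟨A, fun x => ?_⟩
  obtain ⟨b, hb⟩ := c.ex x
  have p := ps_tw (c := c) h.toAd (red_ps h.toAd r) r.sq e b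
  ext1 t
  rw [Loc66.Fg_loc (p.iso h.toAd A (c.op b) fun y _ => ?_) (c.op b) (OK.on h.ok _) (OK.on h.ok _)
    (h.cn.cc.sm · x) (A.cn.cc.sm · x) p.par hb, h.fl]
  · simp
  · obtain ⟨_, _, f, F⟩ := Std94.exists_fx h.hB (pmx h.ok y)
    obtain ⟨n, n0, n1, n2⟩ := red_n r F
    rw [gx_eq F n2, hs_unit (norm_ex n0 n1 _)]

end tw

variable (B c) in
/-- a central flat connection with frames at the base point -/
structure Rf where
  U : Fin 4 → ι → ℝ
  s₀ : Eu lam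
  m : Md M ι lam
  W : m.Cn
  f : S4 →ₗᵢ[ℝ] m.V
  fl : Fl B G W
  fx : Fx B m c.q U s₀ f
  cen : ∀ a, Hl c W W (Xi f f a) (Xi f f a)

variable (c) in
/-- twisting by the angle of the holonomy gives a central connection -/
theorem exists_rf (h : Fl B G W) : Nonempty (Rf B c) := by
  obtain ⟨U, s₀, f, F⟩ := Std94.exists_fx h.hB (pmx h.ok c.q)
  obtain ⟨k, k1, k2⟩ := exists_inner h F
  obtain ⟨n, n0, n1, n2⟩ := polar k1
  generalize arccos k.re = α at n2
  subst n2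
  have cm : ∀ t, ex t n * n = n * ex t n := fun t => by simp [ex, add_mul, mul_add, coe_commutes]
  obtain ⟨ξ, r, e⟩ := exists_red h.toAd F n0 n1 (by
    simpa only [cm, mul_assoc, mul_star_unit k1, mul_one] using k2 n)
  have f' := fl_tw c (s := α / (2 * π)) r (fun _ _ => rfl) h
  have t := hl_tw h.toAd (red_ps h.toAd r) r.sq (s := α / (2 * π)) (fun _ _ => rfl) F e
  refine ⟨⟨U, s₀, m, _, f, f', F, fun a => ?_⟩⟩
  generalize hg : -(α / (2 * π)) * c.φ false c.q = γ at t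
  rw [show -(α / (2 * π)) * (c.φ false c.q + 2 * π) = γ - α by rw [← hg]; field_simp; ring] at t
  have := ((t.trn h.toAd f'.toAd).comp (k2 (ex (-γ) n * a * ex γ n))).comp t
  simp only [trn_Xi, Xi_comp, star_ex n0, mul_assoc, ex_mul n0 n1] at this
  simp only [← mul_assoc, ex_mul n0 n1] at this
  simpa [ex_zero, sub_eq_add_neg, add_assoc, add_left_comm γ] using this

/-- two orthogonal reductions -/
theorem cen_of_two (h : Fl B G W) (F : Fx B m c.q U s₀ f) (r : Red G.F m W ξ) (r' : Red G.F m W η)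
    (o : ⟪ξ c.q, η c.q⟫_ℝ = 0) (a : ℍ) : Hl c W W (Xi f f a) (Xi f f a) := by
  obtain ⟨k, k1, k2⟩ := exists_inner h F
  have z : ∀ {ξ n}, Red G.F m W ξ → opL (ξ c.q) = Xi f f n → k * n = n * k := fun {ξ n} r e => by
    have := (k2 n).uq (e ▸ (red_ps h.toAd r).hl) h.toAd h.toAd
    conv_rhs => rw [← Xi_inj _ _ this, mul_assoc, star_mul_unit k1, mul_one]
  obtain ⟨n, n0, n1, n2⟩ := red_n r F
  obtain ⟨n', n0', n1', n2'⟩ := red_n r' F
  rw [Std94.inner_hs', n2, n2', hs_Xi, mul_eq_zero, or_iff_right (by norm_num), real_inner_comm] at o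
  have e := comm n0 n1 (z r n2)
  have : ⟪k, n⟫_ℝ = 0 := by
    rw [comm n0' n1' (z r' n2'), inner_add_left, real_inner_smul_left, o, Std94.inner_q]; simp [n0]
  rw [this, zero_smul, add_zero] at e
  have := k2 a
  rwa [show k * a = a * k by rw [e, coe_commutes], mul_assoc, mul_star_unit k1, mul_one] at this

namespace Rf
variable (R : Rf B c)

/-- the holonomy quaternion -/
structure Kq (W : m.Cn) (f : S4 →ₗᵢ[ℝ] m.V) (k : ℍ) : Prop where
  fl : Fl B G W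
  fx : Fx B m c.q R.U R.s₀ f
  nk : ‖k‖ = 1
  hl : Hl c R.W W (Xi f R.f 1) (Xi f R.f k)

theorem self : R.Kq R.W R.f 1 := ⟨R.fl, R.fx, norm_one, R.cen 1⟩

theorem exists_k (h : Fl B G W) : ∃ f k, R.Kq W f k := by
  obtain ⟨f, F⟩ := R.fx.toBx.exists_fx (pmx h.ok c.q)
  obtain ⟨_, l⟩ := exists_hl R.fl h ((R.fx.itx_iff F _).2 ⟨1, rfl⟩)
  obtain ⟨k, rfl⟩ := (R.fx.itx_iff F _).1 l.it
  have := l.comp (l.trn R.fl.toAd h.toAd)
  simp only [trn_Xi, Xi_comp, star_one, mul_one] at this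
  exact ⟨f, k, h, F, unit_of (Xi_inj _ _ (this.uq (R.cen 1) R.fl.toAd R.fl.toAd)), l⟩

namespace Kq
variable {R} (K : R.Kq W f k) (K' : R.Kq W' f' k')
include K

theorem re_mem : k.re ∈ Icc (-1 : ℝ) 1 := abs_le.1 (by
  have := unit_iff.1 K.nk
  exact sq_le_one_iff_abs_le_one _ |>.1 (by nlinarith))

theorem of (a : ℍ) : Hl c R.W W (Xi f R.f a) (Xi f R.f (k * a)) := by
  simpa only [Xi_comp, one_mul] using (R.cen a).comp K.hl

include K' in
theorem par_iff : (∃ g, PS G W W' univ g ∧ g c.q = Xi f' f a) ↔ k' * a = a * k := by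
  have l := (K.hl.trn R.fl.toAd K.fl.toAd).comp (K'.of a)
  simp only [trn_Xi, Xi_comp, star_one, mul_one] at l
  refine ⟨fun ⟨g, g1, g2⟩ => ?_, fun e => Hl.glob ?_ K.fl.toAd K'.fl.toAd⟩
  · conv_rhs => rw [← Xi_inj _ _ ((l.uq (g2 ▸ g1.hl) K.fl.toAd K'.fl.toAd).trans g2), mul_assoc,
      star_mul_unit K.nk, mul_one]
  · rwa [e, mul_assoc, mul_star_unit K.nk, mul_one] at l

include K' in
theorem iso_iff : (∃ g, Iso0 I m m' univ g ∧ Par0 G.F W W' univ g) ↔ k.re = k'.re := by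
  refine ⟨fun ⟨g, g1, g2⟩ => ?_, fun e => ?_⟩
  · have p := ps_iso K.fl.toAd K'.fl.toAd isOpen_univ g1 g2
    obtain ⟨a, e⟩ := (K.fx.itx_iff K'.fx _).1 (p.it c.q trivial)
    refine re_conj (fun z => ?_) ((K.par_iff K').1 ⟨g, p, e⟩)
    have := (g1.iso c.q trivial).1
    rw [e, z, ← K.fx.Xi_one, map_zero, ContinuousLinearMap.comp_zero, ← map_zero (Xi f f)] at this
    exact zero_ne_one (Xi_inj _ _ this)
  · obtain ⟨a, a1, a2⟩ := conj K.nk K'.nk e
    obtain ⟨g, g1, g2⟩ := (K.par_iff K').2 a2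
    have := c.conn
    exact ⟨g, g1.iso K.fl.toAd K'.fl.toAd isOpen_univ fun y _ => by
      rw [g1.nrm K.fl.toAd K'.fl.toAd isOpen_univ isPreconnected_univ (mem_univ c.q) trivial, g2, hs_unit a1], g1.par⟩

theorem tw {W' : m.Cn} (r : Red G.F m W ξ) (e : ∀ a x, W' a x = W a x + (s * ν a x) • opL (ξ x))
    (n0 : n.re = 0) (n1 : ‖n‖ = 1) (en : opL (ξ c.q) = Xi f f n) : R.Kq W' f (ex (-(2 * π * s)) n * k) := by
  have cm := (K.par_iff K).1 ⟨_, red_ps K.fl.toAd r, en⟩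
  have cm' : ∀ t, k * ex t n = ex t n * k := fun t => by simp [ex, add_mul, mul_add, coe_commutes, cm]
  have := (K.of (ex (s * c.φ false c.q) n)).comp (hl_tw K.fl.toAd (red_ps K.fl.toAd r) r.sq e K.fx en)
  simp only [Xi_comp, cm', ← mul_assoc, ex_mul n0 n1] at this
  refine ⟨fl_tw c r e K.fl, K.fx, by rw [norm_mul, norm_ex n0 n1, K.nk, mul_one], ?_⟩
  convert this using 3
  · simp [ex_zero]
  · congr 1; ring

/-- the axis of the holonomy -/
theorem ax : ∃ ξ, Red G.F m W ξ ∧ (∀ (W' : m.Cn) s, (∀ a x, W' a x = W a x + (s * ν a x) • opL (ξ x)) →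
    ∃ k', R.Kq W' f k' ∧ k'.re = cos (arccos k.re + 2 * π * s)) ∧ (k.re ≠ 1 → k.re ≠ -1 →
    ∀ T, PS G W W univ T → Skw (T c.q) → ∃ r : ℝ, ∀ x, T x = r • opL (ξ x)) := by
  obtain ⟨n, n0, n1, n2⟩ := polar K.nk
  have n0' : (-n).re = 0 := by simp [n0]
  have n1' : ‖-n‖ = 1 := by rwa [norm_neg]
  have A := K.fl.toAd
  obtain ⟨g, g1, g2⟩ := (K.par_iff K (a := -n)).2 (by rw [n2]; simp [ex, add_mul, mul_add, coe_commutes, add_comm])
  obtain ⟨ξ, r, e⟩ := exists_red A K.fx n0' n1' (g2 ▸ g1.hl)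
  refine ⟨ξ, r, fun W' s e' => ⟨_, K.tw r e' n0' n1' e, ?_⟩, fun h1 h2 T p sk => ?_⟩
  · rw [ex_neg, neg_neg]
    conv_lhs => rw [n2, ex_mul n0 n1, ex_re n0, add_comm]
  · obtain ⟨a, ea⟩ := (K.fx.itx_iff K.fx _).1 (p.it c.q trivial)
    have cm := (K.par_iff K).1 ⟨T, p, ea⟩
    have s0 : sin (arccos k.re) ≠ 0 := by
      rw [sin_arccos, sqrt_ne_zero', sub_pos, sq_lt_one_iff_abs_lt_one, abs_lt]
      exact ⟨K.re_mem.1.lt_of_ne' h2, K.re_mem.2.lt_of_ne h1⟩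
    rw [n2] at cm
    simp only [ex, add_mul, mul_add, coe_commutes, add_right_inj, smul_mul_assoc, mul_smul_comm] at cm
    have := comm n0' n1' (a := a) (by rw [mul_neg, neg_mul, smul_right_injective _ s0 cm])
    rw [(Std94.skew_Xi_iff f a).1 (ea ▸ sk), coe_zero, zero_add] at this
    have q := red_ps A r
    have := c.conn
    exact ⟨⟪a, -n⟫_ℝ, fun x => (p.eqOn (q.lin q (⟪a, -n⟫_ℝ - 1)) A A isOpen_univ isPreconnected_univ Subset.rfl
      (mem_univ c.q) (by simp only [e, ea, sub_smul, one_smul, ← map_smul, ← ‹a = _›, ← map_add, add_sub_cancel])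
      (mem_univ x)).trans (by simp [sub_smul])⟩

/-- central holonomy: every value extends -/
theorem cen (h : k.re = 1 ∨ k.re = -1) {T : En (Fin m.N)} (i : Itx m m x T) : ∃ g, PS G W W univ g ∧ g x = T := by
  obtain ⟨b, hb⟩ := c.ex x
  obtain ⟨u, p, e⟩ := exists_ps K.fl K.fl (c.op b) hb (c.sur b x hb) i
  obtain ⟨a, ea⟩ := (K.fx.itx_iff K.fx _).1 (p.it c.q (c.qU b))
  have k1 := unit_iff.1 K.nk
  have k2 : k.re ^ 2 = 1 := by rcases h with h | h <;> simp [h]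
  have k3 : k = k.re := by ext <;> simp <;> nlinarith
  obtain ⟨g, g1, g2⟩ := (K.par_iff K (a := a)).2 (by rw [k3, coe_commutes])
  exact ⟨g, g1, ((g1.mono (subset_univ _)).eqOn p K.fl.toAd K.fl.toAd (c.op b) (c.con b) Subset.rfl (c.qU b)
    (g2.trans ea.symm) hb).trans e⟩

end Kq
end Rf

end Crest.Agent.X212.Clr59
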