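import Crest.Agent.X212.Clr59.Q
import Crest.Agent.X212.Dfl49.Hom

/-!
# Row 212, P-CLR (helper59), file 2: holonomy along a cover by two simply connected sets

`PS` : parallel intertwiners;  `Cv` : the cover with its angle;  `Hl` : the holonomy relation;
`gx`, `hl_tw` : adding `s ν ξ`.
-/

set_option autoImplicit false
set_option linter.unusedSectionVars false
noncomputable section
open Set Function Filter Topology Quaternion Real
open scoped ContDiff Manifold InnerProductSpace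

namespace Crest.Agent.X212.Clr59
open An Sob92 Wz78 Pj41 Dfl49
open Std94 (Itx Pix Fx Bx Xi S4 hs pmx Xi_comp trn_Xi Xi_inj hs_Xi)

variable {E : Type} [NormedAddCommGroup E] [NormedSpace ℝ E] [FiniteDimensional ℝ E]
  [MeasurableSpace E] [BorelSpace E]
  {HM : Type} [TopologicalSpace HM] {I : ModelWithCorners ℝ E HM} [I.Boundaryless]
  {M : Type} [TopologicalSpace M] [ChartedSpace HM M] [IsManifold I ∞ M]
  [MeasurableSpace M] {ι : Type} [Fintype ι] {lam : Type} [Fintype lam]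
  {B : Base M ι lam} {G : Geo I M ι lam} {m m' m'' : Md M ι lam} {W : m.Cn} {W' : m'.Cn} {W'' : m''.Cn}
  {S O C : Set M} {x : M} {u v : M → CL m.V m'.V} {ξ : M → m.A}

variable (B G) in
/-- admissible connections -/
structure Ad (W : m.Cn) : Prop where
  hB : B.OK I
  hG : G.F.P = B.P
  ok : m.OK I B
  cn : m.IsConn B G W

variable (B G) in
/-- flat connections -/
structure Fl (W : m.Cn) : Prop extends Ad B G W where
  fl : ∀ x, m.Fg G.F W x = 0

theorem Ad.two (h : Ad B G W) (h' : Ad B G W') (hS : IsOpen S) : Two B G W W' S :=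
  ⟨h.hB, h.hG, hS, OK.on h.ok S, OK.on h'.ok S, IsConn.on h.cn S, IsConn.on h'.cn S⟩

variable (G) in
/-- parallel intertwiners -/
structure PS (W : m.Cn) (W' : m'.Cn) (S : Set M) (u : M → CL m.V m'.V) : Prop where
  sm : ∀ x ∈ S, SA I u x
  it : ∀ x ∈ S, Itx m m' x (u x)
  par : Par0 G.F W W' S u

namespace PS
variable (k : PS G W W' S u)
include k

theorem mono (h : O ⊆ S) : PS G W W' O u := ⟨fun x hx => k.sm x (h hx), fun x hx => k.it x (h hx), k.par.mono h⟩

theorem comp {w : M → CL m'.V m''.V} (k' : PS G W' W'' S w) : PS G W W'' S fun x => w x ∘L u x :=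
  ⟨fun x hx => FSm.cc (k'.sm x hx) (k.sm x hx), fun x hx => itx_comp (k.it x hx) (k'.it x hx),
    k.par.trans k'.par k.sm k'.sm⟩

theorem trn (h : Ad B G W) (h' : Ad B G W') : PS G W' W S fun x => trn (u x) := by
  have := k.par.symm k.sm (fun a x _ => h.cn.sk a x) fun a x _ => h'.cn.sk a x
  have s := fun x hx => FSm.ad (k.sm x hx)
  simp only [ad_trn] at this s
  exact ⟨s, fun x hx => itx_trn (pmx h.ok x) (pmx h'.ok x) (k.it x hx), this⟩

theorem lin (k' : PS G W W' S v) (r : ℝ) : PS G W W' S fun x => u x + r • v x := by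
  refine ⟨fun x hx => (k.sm x hx).add (SA.smul contMDiffAt_const (k'.sm x hx)), fun x hx => ?_, fun x hx a => ?_⟩
  · have i := k.it x hx
    have i' := k'.it x hx
    exact ⟨fun y => by simp [i.pl, i'.pl], fun y => by simp [i.pr, i'.pr], fun a y => by simp [i.ρ, i'.ρ],
      fun y => by simp [i.J, i'.J], fun s y => by simp [i.j, i'.j]⟩
  · have := k.par x hx a
    have := k'.par x hx a
    rw [Pre.D_def, ← nab_hA] at *
    rw [nab_add a (k.sm x hx) (SA.smul contMDiffAt_const (k'.sm x hx)), nab_csmul a _ (k'.sm x hx)]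
    simp [*]

theorem pa (h : Two B G W W' S) : ∀ x ∈ S, PA G.F (hA W W') (Pix m m') u x := fun x hx =>
  ⟨k.sm x hx, (h.pix hx).2 (k.it x hx), fun a => by rw [nab_hA]; exact k.par x hx a⟩

theorem eqOn (k' : PS G W W' S v) (h : Ad B G W) (h' : Ad B G W') (hS : IsOpen S) (hC : IsPreconnected C)
    (s : C ⊆ S) (hx : x ∈ C) (e : u x = v x) : EqOn u v C :=
  have t := h.two h' hS
  par_eqOn hS hC s (fun a _ hx => t.sA hx a) (fun a _ hx => t.pA hx a)
    (fun y hy => ⟨k.sm y hy, (k.pa t y hy).par⟩) (fun y hy => ⟨k'.sm y hy, (k'.pa t y hy).par⟩) hx e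

theorem iso (h : Ad B G W) (h' : Ad B G W') (hS : IsOpen S) (n : ∀ x ∈ S, hs (u x) (u x) = 16) :
    Iso0 I m m' S u := (h.two h' hS).iso0_of (k.pa (h.two h' hS)) n

end PS

theorem ps_of (h : Two B G W W' S) (k : ∀ x ∈ S, PA G.F (hA W W') (Pix m m') u x) : PS G W W' S u :=
  ⟨fun x hx => (k x hx).sm, fun x hx => (h.pix hx).1 (k x hx).mem, h.par0_of k⟩

theorem ps_iso (h : Ad B G W) (h' : Ad B G W') (hS : IsOpen S) (i : Iso0 I m m' S u) (p : Par0 G.F W W' S u) :
    PS G W W' S u := ps_of (h.two h' hS) ((h.two h' hS).pa_of Subset.rfl i p)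

theorem ps_p (h : Ad B G W) : PS G W W univ m.p :=
  ps_iso h h isOpen_univ (Iso0.refl (OK.on h.ok _)) (IsConn.on h.cn _).par0_refl

theorem PS.nrm (k : PS G W W' S u) (h : Ad B G W) (h' : Ad B G W') (hS : IsOpen S) (hC : IsPreconnected S)
    (hx : x ∈ S) {y : M} (hy : y ∈ S) : hs (u y) (u y) = hs (u x) (u x) := by
  have n := fun x hx => (Std94.itx_norm h.hB (pmx h.ok x) (pmx h'.ok x) (k.it x hx)).1
  have p := (ps_p h).mono (subset_univ S)
  have := (k.comp (k.trn h h')).eqOn (p.lin p (hs (u x) (u x) / 16 - 1)) h h hS hC Subset.rfl hx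
    (by simp only [n x hx, sub_smul, one_smul, add_sub_cancel]) hy
  simp only [n y hy, sub_smul, one_smul, add_sub_cancel] at this
  have e := congrArg (fun T : En (Fin m.N) => LinearMap.trace ℝ _ (T : m.V →ₗ[ℝ] m.V)) this
  simp only [ContinuousLinearMap.toLinearMap_smul, map_smul, h.ok.prk y, smul_eq_mul] at e
  linarith

theorem exists_ps (h : Fl B G W) (h' : Fl B G W') (hS : IsOpen S) (hx : x ∈ S) (s : Sur {x} S) {T : CL m.V m'.V}
    (i : Itx m m' x T) : ∃ u, PS G W W' S u ∧ u x = T := by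
  have t := h.two h'.toAd hS
  have f := t.flt (fun x _ => h.fl x) fun x _ => h'.fl x
  obtain ⟨U, h1, -, -, h4⟩ := f.exists_loc hx
  obtain ⟨v, k1, k2⟩ := h4 x (mem_of_mem_nhds h1) T ((t.pix hx).2 i)
  obtain ⟨w, w1, w2⟩ := s _ _ f.ls v (by rintro _ rfl; exact mem_of_superset h1 k2)
  exact ⟨w, ps_of t fun y hy => (w1 y hy).self_of_nhds, (w2 rfl).trans k1⟩

theorem PS.congr (k : PS G W W' S u) (hS : IsOpen S) (e : EqOn v u S) : PS G W W' S v :=
  ⟨fun x hx => (k.sm x hx).congr_of_eventuallyEq (e.eventuallyEq_of_mem (hS.mem_nhds hx)),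
    fun x hx => e hx ▸ k.it x hx, fun x hx a => by
      rw [Pre.D_def, dv_congr (e.eventuallyEq_of_mem (hS.mem_nhds hx)), e hx]; exact k.par x hx a⟩

/-- parallel sections of `g` -/
theorem ps_g (h : Ad B G W) (s : Sm I ξ) (g : ∀ x, ξ x ∈ m.gS x) (p : ∀ a x, nab I G.F.e (m.adW W) a ξ x = 0) :
    PS G W W univ fun x => opL (ξ x) :=
  ⟨fun x _ => SA.clm opL (s x), fun x _ => let ⟨_, _, _, f⟩ := Std94.exists_fx h.hB (pmx h.ok x); f.itx_of_mem (g x),
    fun x _ a => by
      have := opL_nab (e := G.F.e) (W := W) a (s x)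
      rw [p, map_zero] at this
      exact (add_sub_assoc _ _ _).trans this⟩

theorem PS.g [PreconnectedSpace M] {T : M → En (Fin m.N)} (k : PS G W W univ T) (h : Ad B G W) (s : Skw (T x)) :
    Sm I (fun y => hsL (T y)) ∧ (∀ y, hsL (T y) ∈ m.gS y) ∧
      ∀ a y, nab I G.F.e (m.adW W) a (fun y => hsL (T y)) y = 0 := by
  have z := (k.lin k (-2)).eqOn (k.trn h h) h h isOpen_univ isPreconnected_univ Subset.rfl (mem_univ x)
    (ContinuousLinearMap.ext fun v => ext_inner_right ℝ fun w => by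
      simp [Eqv71.inner_trn, inner_add_left, inner_smul_left, s v w]; ring)
  refine ⟨fun y => SA.clm hsL (k.sm y trivial), fun y => Std94.Fx.mem_of_itx (k.it y trivial) fun v w => ?_,
    fun a y => by rw [hsL_nab a (k.sm y trivial), nabE, ← add_sub_assoc]; exact (congrArg _ (k.par y trivial a)).trans (map_zero _)⟩
  have := congrArg (fun S : En _ => ⟪S v, w⟫_ℝ) (z (mem_univ y))
  simp [Eqv71.inner_trn, inner_add_left, inner_smul_left] at this
  linarith

/-- a cover by two simply connected sets, with the branches of an angle -/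
structure Cv (F : Fr I M ι) (ν : ι → M → ℝ) where
  U : Bool → Set M
  A : Bool → Set M
  φ : Bool → M → ℝ
  p : M
  q : M
  op : ∀ b, IsOpen (U b)
  con : ∀ b, IsPreconnected (U b)
  cov : ∀ x, x ∈ U false ∨ x ∈ U true
  int : U false ∩ U true = A false ∪ A true
  cA : ∀ b, IsPreconnected (A b)
  pA : p ∈ A false
  qA : q ∈ A true
  sur : ∀ b, ∀ x ∈ U b, Sur {x} (U b)
  sφ : ∀ b, ∀ x ∈ U b, SA I (φ b) x
  dφ : ∀ b, ∀ x ∈ U b, ∀ a, F.D a (φ b) x = ν a x
  ep : φ true p = φ false p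
  eq : φ true q = φ false q + 2 * π

variable {ν : ι → M → ℝ} (c : Cv G.F ν)

theorem Cv.sub (b b' : Bool) : c.A b ⊆ c.U b' := fun x hx => by
  have : x ∈ c.U false ∩ c.U true := c.int ▸ by cases b; exacts [.inl hx, .inr hx]
  cases b'; exacts [this.1, this.2]

theorem Cv.pU (b : Bool) : c.p ∈ c.U b := c.sub _ b c.pA
theorem Cv.qU (b : Bool) : c.q ∈ c.U b := c.sub _ b c.qA

theorem Cv.conn (c : Cv G.F ν) : PreconnectedSpace M :=
  ⟨(eq_univ_of_forall c.cov : c.U false ∪ c.U true = univ) ▸ (c.con _).union _ (c.pU _) (c.pU _) (c.con _)⟩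

/-- `T'` is the transport of `T` along the loop -/
def Hl (W : m.Cn) (W' : m'.Cn) (T T' : CL m.V m'.V) : Prop :=
  ∃ u u', PS G W W' (c.U false) u ∧ PS G W W' (c.U true) u' ∧ u' c.p = u c.p ∧ u c.q = T ∧ u' c.q = T'

variable {c} {T T' T'' R R' : CL m.V m'.V}

theorem exists_hl (h : Fl B G W) (h' : Fl B G W') (i : Itx m m' c.q T) : ∃ T', Hl c W W' T T' :=
  let ⟨u, k, e⟩ := exists_ps h h' (c.op false) (c.qU _) (c.sur _ _ (c.qU _)) i
  let ⟨u', k', e'⟩ := exists_ps h h' (c.op true) (c.pU _) (c.sur _ _ (c.pU _)) (k.it _ (c.pU _))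
  ⟨_, u, u', k, k', e', e, rfl⟩

theorem PS.hl (k : PS G W W' univ u) : Hl c W W' (u c.q) (u c.q) :=
  ⟨u, u, k.mono (subset_univ _), k.mono (subset_univ _), rfl, rfl, rfl⟩

namespace Hl
variable (k : Hl c W W' T T')
include k

theorem it : Itx m m' c.q T' := let ⟨_, _, _, k', _, _, e⟩ := k; e ▸ k'.it _ (c.qU _)

theorem comp {L L' : CL m'.V m''.V} (k' : Hl c W' W'' L L') : Hl c W W'' (L ∘L T) (L' ∘L T') :=
  let ⟨_, _, a1, a2, a3, a4, a5⟩ := k
  let ⟨_, _, b1, b2, b3, b4, b5⟩ := k'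
  ⟨_, _, a1.comp b1, a2.comp b2, by rw [a3, b3], by rw [a4, b4], by rw [a5, b5]⟩

theorem trn (h : Ad B G W) (h' : Ad B G W') : Hl c W' W (An.trn T) (An.trn T') :=
  let ⟨_, _, a1, a2, a3, a4, a5⟩ := k
  ⟨_, _, a1.trn h h', a2.trn h h', by rw [a3], by rw [a4], by rw [a5]⟩

theorem lin (k' : Hl c W W' R R') (r : ℝ) : Hl c W W' (T + r • R) (T' + r • R') :=
  let ⟨_, _, a1, a2, a3, a4, a5⟩ := k
  let ⟨_, _, b1, b2, b3, b4, b5⟩ := k'
  ⟨_, _, a1.lin b1 r, a2.lin b2 r, by rw [a3, b3], by rw [a4, b4], by rw [a5, b5]⟩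

theorem uq (k' : Hl c W W' T T'') (h : Ad B G W) (h' : Ad B G W') : T' = T'' :=
  let ⟨_, _, a1, a2, a3, a4, a5⟩ := k
  let ⟨_, _, b1, b2, b3, b4, b5⟩ := k'
  a5.symm.trans ((a2.eqOn b2 h h' (c.op _) (c.con _) Subset.rfl (c.pU _) (a3.trans ((a1.eqOn b1 h h' (c.op _)
    (c.con _) Subset.rfl (c.qU _) (a4.trans b4.symm) (c.pU _)).trans b3.symm)) (c.qU _)).trans b5)

omit k in
/-- invariant elements extend -/
theorem glob (k : Hl c W W' T T) (h : Ad B G W) (h' : Ad B G W') : ∃ g, PS G W W' univ g ∧ g c.q = T := by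
  classical
  obtain ⟨u, u', a1, a2, a3, a4, a5⟩ := k
  have o := (c.op false).inter (c.op true)
  have e : EqOn u' u (c.U false ∩ c.U true) := fun y hy => by
    have t := fun b => (a2.mono inter_subset_right).eqOn (x := cond b c.q c.p) (a1.mono inter_subset_left) h h' o
      (c.cA b) (subset_inter (c.sub b _) (c.sub b _))
    exact (c.int.le hy).elim (fun k => t false c.pA a3 k) fun k => t true c.qA (a5.trans a4.symm) k
  have k1 := a1.congr (v := (c.U false).piecewise u u') (c.op _) (piecewise_eqOn _ _ _)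
  have k2 := a2.congr (v := (c.U false).piecewise u u') (c.op _) fun y hy => by
    by_cases z : y ∈ c.U false
    · rw [piecewise_eq_of_mem _ _ _ z, e ⟨z, hy⟩]
    · rw [piecewise_eq_of_notMem _ _ _ z]
  exact ⟨_, ⟨fun y _ => (c.cov y).elim (k1.sm y) (k2.sm y), fun y _ => (c.cov y).elim (k1.it y) (k2.it y),
    fun y _ => (c.cov y).elim (k1.par y) (k2.par y)⟩, (piecewise_eq_of_mem _ _ _ (c.qU _)).trans a4⟩

end Hl

/-! ### adding `s ν ξ` -/

/-- the gauge `exp (t ξ)` -/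
def gx (m : Md M ι lam) (ξ : M → m.A) (t : M → ℝ) (x : M) : En (Fin m.N) := cos (t x) • m.p x + sin (t x) • opL (ξ x)

theorem ps_gx {W' : m.Cn} (h : Ad B G W) (k : PS G W W univ fun x => opL (ξ x))
    (sq : ∀ x, opL (ξ x) * opL (ξ x) = -m.p x) {t : M → ℝ} (ht : ∀ x ∈ S, SA I t x)
    (e : ∀ a, ∀ x ∈ S, W' a x = W a x - G.F.D a t x • opL (ξ x)) : PS G W W' S (gx m ξ t) := by
  have p := ps_p h
  have s1 : ∀ x ∈ S, SA I (fun y => cos (t y)) x := fun x hx => (contDiff_cos.contMDiff _).comp x (ht x hx)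
  have s2 : ∀ x ∈ S, SA I (fun y => sin (t y)) x := fun x hx => (contDiff_sin.contMDiff _).comp x (ht x hx)
  refine ⟨fun x hx => (SA.smul (s1 x hx) (p.sm x trivial)).add (SA.smul (s2 x hx) (k.sm x trivial)),
    fun x _ => ?_, fun x hx a => ?_⟩
  · have i := p.it x trivial
    have i' := k.it x trivial
    exact ⟨fun y => by simp [gx, i.pl, i'.pl], fun y => by simp [gx, i.pr, i'.pr], fun a y => by simp [gx, i.ρ, i'.ρ],
      fun y => by simp [gx, i.J, i'.J], fun s y => by simp [gx, i.j, i'.j]⟩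
  · have p1 := p.par x trivial a
    have p2 := k.par x trivial a
    have xp : opL (ξ x) * m.p x = opL (ξ x) := ContinuousLinearMap.ext (k.it x trivial).pr
    have d1 : dv I (G.F.e a) (fun y => cos (t y)) x = -sin (t x) * G.F.D a t x :=
      (dv_comp (ht x hx).md (hasDerivAt_cos _).hasFDerivAt).trans (by simp [mul_comm, Pre.D_def])
    have d2 : dv I (G.F.e a) (fun y => sin (t y)) x = cos (t x) * G.F.D a t x :=
      (dv_comp (ht x hx).md (hasDerivAt_sin _).hasFDerivAt).trans (by simp [mul_comm, Pre.D_def])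
    rw [Pre.D_def] at p1 p2 ⊢
    rw [show gx m ξ t = fun y => cos (t y) • m.p y + sin (t y) • opL (ξ y) from rfl,
      dv_add' (SA.smul (s1 x hx) (p.sm x trivial)) (SA.smul (s2 x hx) (k.sm x trivial)),
      dv_smul (SA.md (s1 x hx)) (p.sm x trivial).md, dv_smul (SA.md (s2 x hx)) (k.sm x trivial).md, e a x hx]
    simp only [d1, d2, ← ContinuousLinearMap.mul_def, mul_add, add_mul, sub_mul, mul_smul_comm,
      smul_mul_assoc, sq, xp] at p1 p2 ⊢
    rw [eq_neg_of_add_eq_zero_left ((add_sub_assoc _ _ _).symm.trans p1),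
      eq_neg_of_add_eq_zero_left ((add_sub_assoc _ _ _).symm.trans p2)]
    module

variable {U : Fin 4 → ι → ℝ} {s₀ : Eu lam} {f : S4 →ₗᵢ[ℝ] m.V} {n : ℍ} {s : ℝ}

theorem gx_eq (F : Fx B m x U s₀ f) (e : opL (ξ x) = Xi f f n) (t : M → ℝ) : gx m ξ t x = Xi f f (ex (t x) n) := by
  rw [gx, ex, map_add, map_smul, F.Xi_coe, e]

section tw
variable {W' : m.Cn} (h : Ad B G W) (l : PS G W W univ fun x => opL (ξ x))
  (sq : ∀ x, opL (ξ x) * opL (ξ x) = -m.p x) (e : ∀ a x, W' a x = W a x + (s * ν a x) • opL (ξ x))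
include h l sq e

theorem ps_tw (b : Bool) : PS G W W' (c.U b) (gx m ξ fun x => -s * c.φ b x) :=
  ps_gx h l sq (fun x hx => SA.mul contMDiffAt_const (c.sφ b x hx)) fun a x hx => by
    rw [e, Pre.D_def, show (fun x => -s * c.φ b x) = (-s) • c.φ b from rfl,
      dv_const_smul _ (c.sφ b x hx).md, ← Pre.D_def, c.dφ b x hx]
    simp

theorem hl_tw (F : Fx B m c.q U s₀ f) (en : opL (ξ c.q) = Xi f f n) :
    Hl c W W' (Xi f f (ex (-s * c.φ false c.q) n)) (Xi f f (ex (-s * (c.φ false c.q + 2 * π)) n)) :=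
  ⟨_, _, ps_tw h l sq e false, ps_tw h l sq e true, by simp only [gx, c.ep], gx_eq F en _,
    (gx_eq F en _).trans (by rw [c.eq])⟩

end tw

end Crest.Agent.X212.Clr59
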