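import Crest.Agent.X212.Std94.Model

/-!
# Row 212, P-CLR (helper59), file 1: quaternions

`inner` : automorphisms are inner;  `conj` : conjugacy classes;  `comm` : commutants;  `ex`, `polar`.
-/

set_option autoImplicit false
noncomputable section
open Quaternion Real
open scoped InnerProductSpace

namespace Crest.Agent.X212.Clr59
open Std94 (qe inner_q)

variable {a k k' n : ℍ} {s t : ℝ}

theorem unit_iff : ‖k‖ = 1 ↔ k.re ^ 2 + k.imI ^ 2 + k.imJ ^ 2 + k.imK ^ 2 = 1 := by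
  rw [← normSq_def', normSq_eq_norm_mul_self, mul_self_eq_one_iff, or_iff_left (by linarith [norm_nonneg k])]

theorem star_mul_unit (h : ‖k‖ = 1) : star k * k = 1 := by
  rw [star_mul_self, normSq_eq_norm_mul_self, h, mul_one, coe_one]

theorem mul_star_unit (h : ‖k‖ = 1) : k * star k = 1 := by
  rw [self_mul_star, normSq_eq_norm_mul_self, h, mul_one, coe_one]

theorem exists_unit {P : ℍ → Prop} (h : P a) (h0 : a ≠ 0) (hs : ∀ (r : ℝ) b, P b → P (r • b)) :
    ∃ b, ‖b‖ = 1 ∧ P b := ⟨_, norm_smul_inv_norm (𝕜 := ℝ) h0, hs _ _ h⟩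

/-- automorphisms of the quaternions are inner -/
theorem inner (Φ : ℍ →ₗ[ℝ] ℍ) (h1 : Φ 1 = 1) (hm : ∀ a b, Φ (a * b) = Φ a * Φ b) :
    ∃ k, ‖k‖ = 1 ∧ ∀ a, Φ a = k * a * star k := by
  have d : ∀ a : ℍ, a = a.re • 1 + a.imI • qe 1 + a.imJ • qe 2 + a.imK • qe 3 := fun a => by
    ext <;> simp [qe]
  have m : ∀ {i j : Fin 4} {l : ℍ}, qe i * qe j = l → Φ (qe i) * Φ (qe j) = Φ l := fun e => e ▸ (hm _ _).symm
  let c : ℍ → ℍ := fun b => b - Φ (qe 1) * b * qe 1 - Φ (qe 2) * b * qe 2 - Φ (qe 3) * b * qe 3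
  have q : ∀ i j, qe i * qe j = ![![qe 0, qe 1, qe 2, qe 3], ![qe 1, -1, qe 3, -qe 2], ![qe 2, -qe 3, -1, qe 1],
      ![qe 3, qe 2, -qe 1, -1]] i j := fun i j => by
    fin_cases i <;> fin_cases j <;> ext <;> simp [qe]
  have e : ∀ b a, Φ a * c b = c b * a := fun b a => by
    have k : ∀ i : Fin 3, Φ (qe i.succ) * c b = c b * qe i.succ := fun i => by
      simp only [c, mul_sub, sub_mul, ← mul_assoc, m (q _ _)]
      simp only [mul_assoc, q]
      fin_cases i <;> simp [h1] <;> abel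
    rw [d a]
    simp only [map_add, map_smul, h1, add_mul, mul_add, smul_mul_assoc, mul_smul_comm, one_mul, mul_one]
    rw [show Φ (qe 1) * c b = _ from k 0, show Φ (qe 2) * c b = _ from k 1, show Φ (qe 3) * c b = _ from k 2]
    rfl
  obtain ⟨b, hb⟩ : ∃ b, c b ≠ 0 := by
    by_contra! z
    have : c 1 - c (qe 1) * qe 1 - c (qe 2) * qe 2 - c (qe 3) * qe 3 = 4 := by
      simp only [c, sub_mul, mul_assoc, q]
      simp [q]
      abel_nf
      norm_num
    simp only [z, zero_mul, sub_zero] at this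
    exact (by norm_num : (0 : ℝ) ≠ 4) (congrArg QuaternionAlgebra.re this)
  obtain ⟨k, k1, k2⟩ := exists_unit (P := fun k => ∀ a, Φ a * k = k * a) (e b) hb fun r b h a => by
    rw [mul_smul_comm, h, smul_mul_assoc]
  exact ⟨k, k1, fun a => by rw [← k2, mul_assoc, mul_star_unit k1, mul_one]⟩

/-- units with the same real part are conjugate -/
theorem conj (h : ‖k‖ = 1) (h' : ‖k'‖ = 1) (e : k.re = k'.re) : ∃ a, ‖a‖ = 1 ∧ k' * a = a * k := by
  rw [unit_iff] at h h'
  have m : ∀ b : ℍ, k' * (k'.im * b + b * k.im) = (k'.im * b + b * k.im) * k := fun b => by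
    ext <;> simp [← e] <;> grind
  have z : ∀ {a : ℍ}, a ≠ 0 → k' * a = a * k → ∃ a, ‖a‖ = 1 ∧ k' * a = a * k := fun h0 h =>
    exists_unit (P := fun a => k' * a = a * k) h h0 fun r b h => by rw [mul_smul_comm, h, smul_mul_assoc]
  by_contra u
  have w := fun b => not_not.1 fun h0 => u (z h0 (m b))
  have w0 := w 1; have w1 := w (qe 1); have w2 := w (qe 2)
  simp only [Quaternion.ext_iff, qe] at w0 w1 w2
  simp at w0 w1 w2
  exact u (z one_ne_zero (by ext <;> simp [e] <;> linarith))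

theorem re_conj (h0 : a ≠ 0) (e : k' * a = a * k) : k.re = k'.re := by
  have : (star a * (k' * a)).re = (star a * (a * k)).re := by rw [e]
  refine mul_left_cancel₀ (normSq_ne_zero.2 h0) ?_
  rw [normSq_def']
  simp at this
  linarith

/-- the commutant of an imaginary unit -/
theorem comm (h : n.re = 0) (h1 : ‖n‖ = 1) (e : a * n = n * a) : a = a.re + ⟪a, n⟫_ℝ • n := by
  rw [unit_iff, h] at h1
  simp only [Quaternion.ext_iff] at e
  simp [h] at e
  rw [inner_q]
  ext <;> simp [h] <;> grind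

/-- the exponential -/
def ex (t : ℝ) (n : ℍ) : ℍ := cos t + sin t • n

theorem ex_mul (h : n.re = 0) (h1 : ‖n‖ = 1) (s t : ℝ) : ex s n * ex t n = ex (s + t) n := by
  rw [unit_iff, h] at h1
  ext <;> simp [ex, h, cos_add, sin_add] <;> grind

theorem star_ex (h : n.re = 0) (t : ℝ) : star (ex t n) = ex (-t) n := by
  ext <;> simp [ex, h]

theorem ex_zero : ex 0 n = 1 := by simp [ex]

theorem ex_re (h : n.re = 0) (t : ℝ) : (ex t n).re = cos t := by simp [ex, h]

theorem norm_ex (h : n.re = 0) (h1 : ‖n‖ = 1) (t : ℝ) : ‖ex t n‖ = 1 := by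
  rw [unit_iff] at h1 ⊢
  simp [ex, h] at h1 ⊢
  grind [sin_sq_add_cos_sq t]

theorem ex_neg : ex t (-n) = ex (-t) n := by simp [ex]

/-- the polar form -/
theorem polar (h : ‖k‖ = 1) : ∃ n, n.re = 0 ∧ ‖n‖ = 1 ∧ k = ex (arccos k.re) n := by
  have h2 := unit_iff.1 h
  have c : cos (arccos k.re) = k.re := cos_arccos (by nlinarith) (by nlinarith)
  have e : sin (arccos k.re) = ‖k.im‖ := by
    rw [sin_arccos, sqrt_eq_iff_mul_self_eq (by nlinarith) (norm_nonneg _), ← normSq_eq_norm_mul_self, normSq_def']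
    simp
    linarith
  by_cases z : k.im = 0
  · exact ⟨qe 1, rfl, by simp [unit_iff, qe], by rw [ex, c, e, z, norm_zero, zero_smul, ← z, re_add_im]⟩
  · exact ⟨‖k.im‖⁻¹ • k.im, by simp, norm_smul_inv_norm (𝕜 := ℝ) z, by
      rw [ex, c, e, smul_inv_smul₀ (norm_ne_zero_iff.2 z), re_add_im]⟩

end Crest.Agent.X212.Clr59
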